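import Vale.Agent.P167.H685.LD.Ea

/-!
# P167, general `q`, block Q-LAM (MomT): the extension of the event at a flat boundary point

`Ea e D p r`: no path of the colour `!e` around the boundary point `p` (of the colour `e`) in the box of
radius `r`. `ExtE`: the event at the scale `r''` has, given everything outside of a larger box, a
probability comparable to the one of the event at the scale `r'`.
-/

namespace Vale.Agent.P167.H601.M

open Vale.Agent.P167.BR Vale.Agent.P167.FK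
open Vale.Agent.P167.E6 (IsPolygon Encloses)
open Vale.Agent.P167.H632 (pr)
open Vale.Agent.P167.H685.LD (JW Ea)

/-- **Extension of the event at a flat boundary point.** -/
def ExtE (Q : ℝ) : Prop := ∃ Λ : ℤ, 1 ≤ Λ ∧ ∀ E : ℕ, ∃ (K : ℤ) (C1 : ℝ), 1 ≤ K ∧ 1 ≤ C1 ∧
  ∀ {n : ℕ} {q : ZMod n → ℤ × ℤ} {D : Finset (ℤ × ℤ)} {k : ℕ} {R : ℤ} {η : Cfg} {e : Bool},
    IsPolygon q → Encloses q D → JW q D k R → Good η →
    ((q (k : ZMod n)).1 + (q (k : ZMod n)).2) % 2 = pr e →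
    ∀ r' r'' : ℤ, K ≤ r' → r' ≤ r'' → r'' ≤ 2 * E * r' → Λ * r'' ≤ R →
    ∀ F : Cfg → ℝ, (∀ ω, 0 ≤ F ω) →
      (∀ ω ω' : Cfg, (∀ v, ¬ (v ∈ D ∧ nm (v - q (k : ZMod n)) ≤ Λ * r'') → ω v = ω' v) →
        F ω = F ω') →
      Ex Q D η (fun ω => (Ea e D (q (k : ZMod n)) r').indicator 1 ω * F ω) ≤
        C1 * Ex Q D η (fun ω => (Ea e D (q (k : ZMod n)) r'').indicator 1 ω * F ω)

end Vale.Agent.P167.H601.M
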