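import Vale.Agent.P167.H601.M.Data
import Vale.Agent.P167.H192.Lam.ExtE

/-!
# P167, general `q`, block Q-LAM (MomT, U_S): the moment bound for the polygons of the three classes
-/

namespace Vale.Agent.P167.H601.M

open Finset
open Vale.Agent.P167.E6 (IsPolygon Encloses)
open Vale.Agent.P167.BR
open Vale.Agent.P167.FK (Bq Ex Good RSW cf)
open Vale.Agent.P167.FKA (Loc Ex_mono Ex_congr Ex_const Ex_mul_left Ex_nonneg)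
open Vale.Agent.P167.H562.QM (MajA OneC)
open Vale.Agent.P167.H192.Q (SRSW)
open Vale.Agent.P167.H975 (TX TX_loc)
open Vale.Agent.P167.H601.LG
open Vale.Agent.P167.H601.S2

/-- The product of the local factors over the special points. -/
noncomputable def TS (θ : ℝ) {N : ℕ} (q : ZMod N → ℤ × ℤ) (D : Finset (ℤ × ℤ)) (k : ℕ)
    (τ : ℕ → ℤ) (r : ℤ) (ω : Cfg) : ℝ :=
  ∏ j ∈ spx N k τ, TX (wJ θ ((θ - Real.pi) / 2) q D k τ) D (q (j : ZMod N)) r ω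

/-- The number of the special points. -/
theorem exists_ms (σ R : ℝ) (hσ : 0 < σ) : ∃ ms n₀ : ℕ, ∀ n : ℕ, n₀ ≤ n → ∀ {N : ℕ}
    {q : ZMod N → ℤ × ℤ} {D : Finset (ℤ × ℤ)} {k : ℕ} {τ : ℕ → ℤ}, Geo n σ R q D k τ →
    (spx N k τ).card ≤ ms := by
  obtain ⟨ms, hms⟩ := exists_nat_ge (2 * |R| / σ)
  obtain ⟨n₀, hn₀⟩ := exists_nat_ge (2 / σ)
  refine ⟨ms + 1, n₀, fun n hn N q D k τ hG => ?_⟩
  have hn' : 2 / σ ≤ n := hn₀.trans (by exact_mod_cast hn)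
  rw [div_le_iff₀ hσ] at hn'
  have h1 : σ * n < (⌊σ * n⌋₊ : ℝ) + 1 := Nat.lt_floor_add_one _
  have hL1 : 1 ≤ ⌊σ * (n : ℝ)⌋₊ := by
    have h2 : (0 : ℝ) < (⌊σ * n⌋₊ : ℝ) := by linarith
    exact_mod_cast h2
  refine (card_spx hG.sep hL1).trans (Nat.add_le_add_right ?_ 1)
  have h2 : (N : ℝ) ≤ ms * (⌊σ * n⌋₊ : ℝ) := by
    have h3 := hG.len
    rw [div_le_iff₀ hσ] at hms
    have hn0 : (0 : ℝ) ≤ n := Nat.cast_nonneg n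
    have h4 : R * n ≤ |R| * n := mul_le_mul_of_nonneg_right (le_abs_self R) hn0
    have h5 : 2 * |R| * n ≤ ms * σ * n := mul_le_mul_of_nonneg_right hms hn0
    have h6 : (0 : ℝ) ≤ ms := Nat.cast_nonneg ms
    nlinarith
  have h3 : N ≤ ms * ⌊σ * (n : ℝ)⌋₊ := by exact_mod_cast h2
  exact (Nat.div_le_iff_le_mul_add_pred (by omega)).2 (by
    rw [mul_comm]
    omega)

/-- The radii. -/
theorem exists_rad {σ ρ : ℝ} {W : ℤ} (hW : 1 ≤ W) (hρ : 0 < ρ) (h1 : 80 * W * ρ ≤ 1)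
    (h2 : 80 * W * ρ ≤ σ) : ∃ n₀ : ℕ, ∀ n : ℕ, n₀ ≤ n → 1 ≤ ⌊ρ * n⌋ ∧
      40 * (W * (⌊ρ * n⌋ + 1)) < n ∧ 40 * (W * (⌊ρ * n⌋ + 1)) < (⌊σ * n⌋₊ : ℤ) := by
  have hW' : (1 : ℝ) ≤ W := by exact_mod_cast hW
  have hσ : 0 < σ := lt_of_lt_of_le (by positivity) h2
  obtain ⟨n₀, hn₀⟩ := exists_nat_ge (1 / ρ + 2 * (40 * W + 2) + 2 * (40 * W + 2) / σ)
  have p1 : 0 ≤ 1 / ρ := by positivity
  have p2 : 0 ≤ 2 * (40 * (W : ℝ) + 2) / σ := by positivity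
  refine ⟨n₀, fun n hn => ?_⟩
  have hn' : (n₀ : ℝ) ≤ n := by exact_mod_cast hn
  have q1 : 1 / ρ ≤ n := by linarith
  have q2 : 2 * (40 * W + 2) ≤ (n : ℝ) := by linarith
  have q3 : 2 * (40 * W + 2) / σ ≤ (n : ℝ) := by linarith
  rw [div_le_iff₀ hρ] at q1
  rw [div_le_iff₀ hσ] at q3
  have hfl : (⌊ρ * n⌋ : ℝ) ≤ ρ * n := Int.floor_le _
  have hn0 : (0 : ℝ) ≤ n := Nat.cast_nonneg n
  have h3 : 80 * W * ρ * n ≤ n := by nlinarith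
  have h4 : 80 * W * ρ * n ≤ σ * n := mul_le_mul_of_nonneg_right h2 hn0
  have h5 : (W : ℝ) * (⌊ρ * n⌋ + 1) ≤ W * (ρ * n) + W := by nlinarith
  refine ⟨?_, ?_, ?_⟩
  · refine Int.le_floor.2 ?_
    push_cast
    linarith
  · have h6 : 40 * ((W : ℝ) * (⌊ρ * n⌋ + 1)) < n := by nlinarith
    exact_mod_cast h6
  · have h7 : σ * n < (⌊σ * n⌋₊ : ℝ) + 1 := Nat.lt_floor_add_one _
    have h6 : 40 * ((W : ℝ) * (⌊ρ * n⌋ + 1)) < (⌊σ * n⌋₊ : ℝ) := by nlinarith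
    exact_mod_cast h6

/-- **The moment bound for the polygons of the three classes.** -/
theorem mom_geo {θ : ℝ} (h0 : 0 < θ) (h1 : θ ≤ Real.pi / 3) (hR : RSW (2 * Real.cos θ))
    (hSR : SRSW (2 * Real.cos θ)) (σ R : ℝ) (hσ : 0 < σ) : ∃ ρ₁ : ℝ, 0 < ρ₁ ∧
    ∀ ρ : ℝ, 0 < ρ → ρ ≤ ρ₁ → ∀ κ s : ℝ, 0 < κ → 0 ≤ s →
    ∃ (c C : ℝ) (n₀ : ℕ), 0 < c ∧ 0 < C ∧ ∀ n : ℕ, n₀ ≤ n → ∀ {N : ℕ} {q : ZMod N → ℤ × ℤ}
      {D : Finset (ℤ × ℤ)} {k : ℕ} {τ : ℕ → ℤ}, Geo n σ R q D k τ → Cls q k τ →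
      (∀ ω, 0 ≤ TS θ q D k τ ⌊ρ * n⌋ ω) ∧ ∀ z : ℤ × ℤ, ∃ Nf : Cfg → ℕ,
        (∀ ω ω' : Cfg, (∀ v : ℤ × ℤ, c * n < (nm (v - z) : ℝ) → ω v = ω' v) → Nf ω = Nf ω') ∧
        (∀ ω, MajA D (κ * n) ω (Nf ω)) ∧
        ∀ η : Cfg, Good η → (∀ (x : ℤ × ℤ) (a : ℤ), 1 ≤ a → a ≤ ⌊σ * n⌋ →
            (∃ v ∈ D, nm (x - v) ≤ ⌊σ * n⌋) → OneC x a D η) →
          Ex (2 * Real.cos θ) D η (fun ω => TS θ q D k τ ⌊ρ * n⌋ ω * Real.exp (s * (Nf ω : ℝ))) ≤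
            C * Ex (2 * Real.cos θ) D η (TS θ q D k τ ⌊ρ * n⌋) := by
  have hcos : 1 / 2 ≤ Real.cos θ := by
    rw [← Real.cos_pi_div_three]
    exact Real.cos_le_cos_of_nonneg_of_le_pi h0.le (by linarith [Real.pi_pos]) h1
  have hQ : 1 ≤ 2 * Real.cos θ := by linarith
  have hQ0 : 0 < 2 * Real.cos θ := by linarith
  obtain ⟨c0, hc0, hc1, HD⟩ := exists_data h0 h1
  obtain ⟨Λ, KE, CE, hF⟩ := exists_extF (LamX.extE hQ hR hSR)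
  have hΛ := hF.1
  have hΛ' : (1 : ℝ) ≤ Λ := by exact_mod_cast hΛ
  obtain ⟨ms, n₁, hms⟩ := exists_ms σ R hσ
  have hm0 : 0 < min 1 σ := lt_min one_pos hσ
  refine ⟨min 1 σ / (80 * (Λ + 4)), by positivity, fun ρ hρ hρ1 κ s hκ hs => ?_⟩
  rw [le_div_iff₀ (by positivity)] at hρ1
  have hW : 80 * ((Λ + 4 : ℤ) : ℝ) * ρ ≤ min 1 σ := by
    push_cast
    linarith
  have hW5 : 5 * ρ * 80 ≤ 80 * ((Λ + 4 : ℤ) : ℝ) * ρ := by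
    push_cast
    nlinarith
  obtain ⟨n₂, hn₂⟩ := exists_rad (W := Λ + 4) (by omega) hρ (hW.trans (min_le_left _ _))
    (hW.trans (min_le_right _ _))
  have hm1 := min_le_left 1 σ
  have hm2 := min_le_right 1 σ
  obtain ⟨E, c, C, n₃, hc, hC, HC⟩ := core h0 h1 hR ms hc0 hc1 (Rd := |R|) (σ := σ) (abs_nonneg R)
    KE CE (fun E => (hF.2 E).2.1) hρ (by nlinarith) (by nlinarith) hκ hs
  refine ⟨c, C, max (max n₁ n₂) n₃, hc, hC, fun n hn N q D k τ hG hCl => ?_⟩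
  have hn1 : n₁ ≤ n := (le_max_left _ _).trans ((le_max_left _ _).trans hn)
  have hn2 : n₂ ≤ n := (le_max_right _ _).trans ((le_max_left _ _).trans hn)
  have hn3 : n₃ ≤ n := (le_max_right _ _).trans hn
  obtain ⟨r1, r2, r3⟩ := hn₂ n hn2
  obtain ⟨P, cI, I, hD⟩ := HD hQ0 hF hG hCl ⌊ρ * n⌋ r1 (by exact_mod_cast r2) r3
  have hPc : P.card ≤ ms := (card_le_card hD.sub).trans (hms n hn1 hG)
  have hP : ∀ j ∈ P, j < N ∧ Spe τ k j := fun j hj => mem_spx.1 (hD.sub hj)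
  have hTS : ∀ ω, TS θ q D k τ ⌊ρ * n⌋ ω =
      TT θ ((θ - Real.pi) / 2) q D k τ I P ⌊ρ * n⌋ ω := hD.eq
  obtain ⟨x₀, hx₀⟩ := hG.dia
  refine ⟨fun ω => ?_, fun z => ?_⟩
  · rw [hTS]
    -- the extra factor is nonnegative
    exact mul_nonneg ((hD.ext FK.eta0 FK.good_eta0 E).nn _ _) (hD.wl.pnonneg hc0.le ω)
  · obtain ⟨Nf, t1, t2, t3⟩ := HC n hn3 (D := D) (k := k) (τ := τ) (β := (θ - Real.pi) / 2) (q := q)
      P cI x₀ hPc (fun v hv => (hx₀ v hv).trans (mul_le_mul_of_nonneg_right (le_abs_self R)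
        (Nat.cast_nonneg n))) z
    refine ⟨Nf, t1, t2, fun η hη hone => ?_⟩
    have hS : Sit n N ⌊σ * n⌋₊ ⌊σ * n⌋ q D k τ η :=
      ⟨hG.geo, hG.poly, hG.enc, hG.sep, hη, hone⟩
    have key := t3 I Λ η hS hP hD.wl (hD.ext η hη E) hD.far
    have e1 : (fun ω => TS θ q D k τ ⌊ρ * n⌋ ω * Real.exp (s * (Nf ω : ℝ))) = fun ω =>
        TT θ ((θ - Real.pi) / 2) q D k τ I P ⌊ρ * n⌋ ω * Real.exp (s * (Nf ω : ℝ)) := by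
      funext ω
      rw [hTS]
    have e2 : TS θ q D k τ ⌊ρ * n⌋ = TT θ ((θ - Real.pi) / 2) q D k τ I P ⌊ρ * n⌋ :=
      funext hTS
    rw [e1, e2]
    exact key

end Vale.Agent.P167.H601.M
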