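import Vale.Agent.P167.H601.M.MomX
import Vale.Agent.P167.H135.Br.Main
import Vale.Agent.P167.H852.Q.Y5g
import Vale.Agent.P167.H825.Reg.Tr

/-!
# P167, general `q`, block Q-LAM: the classes of the families

`HX`: what is used of a family. `hx_fw`: free and wired families with a flat base of the good parity.
`hx_dob`: Dobrushin families.
-/

namespace Vale.Agent.P167.H601.M

open Finset Filter Topology
open Vale.Agent.P167.Enl
open Vale.Agent.P167.E6 (IsPolygon Encloses dir face)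
open Vale.Agent.P167.BR
open Vale.Agent.P167.FK
open Vale.Agent.P167.H825 (enl pdir)
open Vale.Agent.P167.H825.Q (Bc)
open Vale.Agent.P167.H871 (Bd)
open Vale.Agent.P167.H542.Q (BD)
open Vale.Agent.P167.H167.Q (Reg BcIn)
open Vale.Agent.P167.H192.Q (SRSW)
open Vale.Agent.P167.H632 (pr)
open Vale.Agent.P167.H718 (Dob poly_add encl_add bd_add)
open Vale.Agent.P167.H975 (GoodB sepL_mono)
open Vale.Agent.P167.H601.LG
open Vale.Agent.P167.H760.Q (BaseQ JunQ pb q_pos)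
open Vale.Agent.P167.H852.Q (SepE sepE_of PN_pe)

variable {S : CA.Dat} {θ β : ℝ}

/-- What is used of a family. -/
def HX (X : BD S θ β) (σ : ℝ) : Prop := ∀ᶠ n : ℕ in X.L, ∀ (a : Fin 4) (τ : ℕ → ℤ),
  Bd (S.D n : Set (ℤ × ℤ)) (X.N n) (fun i => X.q n (i : ZMod (X.N n))) τ 1 →
  SepL ⌊σ * n⌋₊ (X.N n) τ (X.k n) ∧ Cls (fun i => X.q n i + E6.dir a) (X.k n) τ ∧
  ∃ η₀, Dob η₀ ((S.D n).image (· + E6.dir a)) (fun i => X.q n i + E6.dir a) (X.k n) ∧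
    Reg ⌊σ * n⌋ ((S.D n).image (· + E6.dir a)) η₀

theorem dob_cast {N l n t k : ℕ} [NeZero l] (hn : 0 < n) (hN : N = l * n) {p : ZMod l → ℤ × ℤ}
    {q : ZMod N → ℤ × ℤ} (hs : ∀ j : ℕ, q (j : ZMod N) = PN p n (j + t)) {η : Cfg}
    {D : Finset (ℤ × ℤ)} {a : ℤ × ℤ}
    (h : Dob η D (fun i : ZMod (l * n) => qN p n t i + a) k) : Dob η D (fun i => q i + a) k := by
  subst hN
  have hN0 : NeZero (l * n) := ⟨Nat.mul_ne_zero (NeZero.ne l) hn.ne'⟩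
  have e : (fun i : ZMod (l * n) => qN p n t i + a) = fun i => q i + a := by
    funext i
    have h1 := hs i.val
    rw [ZMod.natCast_zmod_val] at h1
    rw [h1]
    rfl
  rwa [e] at h

theorem enl_eq (Q : Finset (ℤ × ℤ)) (n : ℕ) : CA.enl Q n = enl Q n := rfl

/-- The position of the polygon. -/
theorem pos_X (X : BD S θ β) {s : ℕ → ℕ} (hb : BaseQ X s) : ∀ᶠ n : ℕ in X.L, 0 < n ∧
    0 < ⌊S.tp * n⌋₊ + s n ∧ ⌊S.tp * n⌋₊ + s n < n ∧ X.N n = S.l * n ∧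
    ∀ j : ℕ, X.q n (j : ZMod (X.N n)) = PN S.p n (j + (⌊S.tp * n⌋₊ + s n)) := by
  have htp0 := S.tp0
  have htp1 := S.tp1
  obtain ⟨hs1, hb⟩ := hb
  have hlarge : ∀ A : ℝ, ∀ᶠ n : ℕ in X.L, A ≤ n := fun A => X.le
    ((eventually_ge_atTop ⌈A⌉₊).mono fun n hn => (Nat.le_ceil A).trans (by exact_mod_cast hn))
  filter_upwards [X.poly, X.enc, hb, hlarge (2 / (1 - S.tp)), hlarge (2 / S.tp), hlarge 1] with
    n a1 a2 a3 a4 a5 a6
  rw [div_le_iff₀ (by linarith)] at a4 a5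
  have hn' : (0 : ℝ) < n := by linarith
  have hn : 0 < n := by exact_mod_cast hn'
  have k1 : (⌊S.tp * n⌋₊ : ℝ) ≤ S.tp * n := Nat.floor_le (by positivity)
  have k2 : S.tp * n < (⌊S.tp * n⌋₊ : ℝ) + 1 := Nat.lt_floor_add_one _
  have k3 : ((s n : ℕ) : ℝ) ≤ 1 := by exact_mod_cast hs1 n
  have ht1 : ⌊S.tp * n⌋₊ + s n < n := by
    have : ((⌊S.tp * n⌋₊ + s n : ℕ) : ℝ) < n := by push_cast; nlinarith
    exact_mod_cast this
  have ht0 : 0 < ⌊S.tp * n⌋₊ := by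
    have : (0 : ℝ) < (⌊S.tp * n⌋₊ : ℝ) := by linarith
    exact_mod_cast this
  obtain ⟨hN, hpos⟩ := q_pos S hn a1 a2 ht1 a3
  refine ⟨hn, by omega, ht1, by rw [hN, mul_comm], fun j => ?_⟩
  rw [hpos j, PN_pe S.poly, add_comm j]

/-- The flat base. -/
theorem flat_base {N l n s : ℕ} {p : ZMod l → ℤ × ℤ} {q : ZMod N → ℤ × ℤ} {τ : ℕ → ℤ}
    {D : Set (ℤ × ℤ)} {a : ℤ × ℤ} (hp : IsPolygon p) (hn : 0 < n) (hN : N = l * n) (h0 : 0 < s)
    (hsn : s < n) (hs : ∀ j : ℕ, q (j : ZMod N) = PN p n (j + s) + a)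
    (hu : Bd D N (fun k => q (k : ZMod N)) τ 1) (hd : pdir p 0 = 0) :
    τ N = τ (N - 1) ∧ Top.vec (τ N) = (1, 0) := by
  have hl := hp.1
  have hln : n ≤ l * n := Nat.le_mul_of_pos_left n (by omega)
  refine ⟨H135.Br.u_flat hp hn hs hu (ia := l) (r := s) (by omega) h0 hsn (by omega), ?_⟩
  rw [H135.Br.vec_u hp hn hs hu, hN, add_comm (l * n), Nat.add_mul_div_right _ _ hn,
    Nat.div_eq_of_lt hsn, zero_add]
  have h1 : pdir p l = pdir p 0 := by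
    have := pdir_add (p := p) 0
    rwa [zero_add] at this
  rw [h1, hd]
  rfl

/-- Parity of a translate by one step. -/
theorem par_dir (v : ℤ × ℤ) (a : Fin 4) :
    ((v + E6.dir a).1 + (v + E6.dir a).2) % 2 = (v.1 + v.2 + 1) % 2 := by
  fin_cases a <;> simp [E6.dir] <;> omega

/-- **Free and wired families.** -/
theorem hx_fw (X : BD S θ β) {s : ℕ → ℕ} (hb : BaseQ X s) (hd : pdir S.p 0 = 0)
    (hk : (∀ᶠ n in X.L, X.k n = X.N n ∧ Even ((X.q n 0).1 + (X.q n 0).2)) ∨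
      ∀ᶠ n in X.L, X.k n = 0 ∧ ¬ Even ((X.q n 0).1 + (X.q n 0).2)) : ∃ σ : ℝ, 0 < σ ∧ HX X σ := by
  have hl : NeZero S.l := ⟨by have := S.poly.1; omega⟩
  obtain ⟨c, hc, hsep⟩ := sepE_of X hb (hk.elim (fun h => Or.inr (Or.inl (h.mono fun _ h => h.1)))
    fun h => Or.inl (h.mono fun _ h => h.1))
  obtain ⟨σ, hσ, s1, s2⟩ : ∃ σ : ℝ, 0 < σ ∧ σ ≤ c ∧ σ ≤ 1 / 4 :=
    ⟨min c (1 / 4), by positivity, min_le_left _ _, min_le_right _ _⟩
  have hlarge : ∀ᶠ n : ℕ in X.L, 2 ≤ n := X.le (eventually_ge_atTop 2)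
  -- the regular outside configurations
  have hreg : ∀ᶠ n : ℕ in X.L, ∀ a : Fin 4, ∃ η₀,
      Dob η₀ ((S.D n).image (· + E6.dir a)) (fun i => X.q n i + E6.dir a) (X.k n) ∧
        Reg ⌊σ * n⌋ ((S.D n).image (· + E6.dir a)) η₀ := by
    have hm : ∀ n : ℕ, 2 ≤ n → 2 * ⌊σ * (n : ℝ)⌋ + 1 ≤ n := by
      intro n hn
      have h1 : (⌊σ * (n : ℝ)⌋ : ℝ) ≤ σ * n := Int.floor_le _
      have h2 : (2 : ℝ) ≤ n := by exact_mod_cast hn
      have h3 : ((2 * ⌊σ * (n : ℝ)⌋ + 1 : ℤ) : ℝ) ≤ (n : ℝ) := by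
        push_cast
        nlinarith
      exact_mod_cast h3
    rcases hk with hk | hk
    · filter_upwards [pos_X X hb, hk, hlarge] with n hp hk hn a
      obtain ⟨h1, h2, h3, h4, h5⟩ := hp
      obtain ⟨k1, k2⟩ := H825.Reg.reg_free_tr S.poly S.enc h1 (hm n hn) (⌊S.tp * n⌋₊ + s n)
        (E6.dir a)
      refine ⟨_, dob_cast h1 h4 h5 ?_, k2⟩
      rw [hk.1, h4]
      exact k1
    · filter_upwards [pos_X X hb, hk, hlarge] with n hp hk hn a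
      obtain ⟨h1, h2, h3, h4, h5⟩ := hp
      obtain ⟨k1, k2⟩ := H825.Reg.reg_wired_tr S.poly S.enc h1 (hm n hn) (⌊S.tp * n⌋₊ + s n)
        (E6.dir a)
      refine ⟨_, dob_cast h1 h4 h5 ?_, k2⟩
      rw [hk.1]
      exact k1
  have hcls : ∀ᶠ n : ℕ in X.L, ∀ (a : Fin 4) (τ : ℕ → ℤ),
      Bd (S.D n : Set (ℤ × ℤ)) (X.N n) (fun i => X.q n (i : ZMod (X.N n))) τ 1 →
      Cls (fun i => X.q n i + E6.dir a) (X.k n) τ := by
    have hk' : ∀ᶠ n in X.L, (X.k n = X.N n ∧ Even ((X.q n 0).1 + (X.q n 0).2)) ∨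
        (X.k n = 0 ∧ ¬ Even ((X.q n 0).1 + (X.q n 0).2)) :=
      hk.elim (fun h => h.mono fun _ h => Or.inl h) fun h => h.mono fun _ h => Or.inr h
    filter_upwards [pos_X X hb, hk'] with n hp hk a τ hτ
    obtain ⟨h1, h2, h3, h4, h5⟩ := hp
    obtain ⟨f1, f2⟩ := flat_base (a := E6.dir a) (q := fun i => X.q n i + E6.dir a) S.poly h1 h4 h2 h3
      (fun j => by
        show X.q n (j : ZMod (X.N n)) + E6.dir a = _
        rw [h5 j]) (bd_add hτ (E6.dir a)) hd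
    rcases hk with ⟨k1, k2⟩ | ⟨k1, k2⟩
    · refine Cls.flat false (Or.inl ⟨rfl, k1⟩) f1 f2 ?_
      show ((X.q n 0 + E6.dir a).1 + (X.q n 0 + E6.dir a).2) % 2 = pr false
      rw [par_dir, show pr false = 1 by decide]
      rw [Int.even_iff] at k2
      omega
    · refine Cls.flat true (Or.inr ⟨rfl, k1⟩) f1 f2 ?_
      show ((X.q n 0 + E6.dir a).1 + (X.q n 0 + E6.dir a).2) % 2 = pr true
      rw [par_dir, show pr true = 0 by decide]
      rw [Int.even_iff] at k2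
      omega
  refine ⟨σ, hσ, ?_⟩
  filter_upwards [hsep, hreg, hcls] with n g1 g2 g3 a τ hτ
  refine ⟨sepL_mono (g1 τ hτ) (Nat.floor_le_floor ?_), g3 a τ hτ, g2 a⟩
  exact mul_le_mul_of_nonneg_right s1 (Nat.cast_nonneg n)

/-- **Dobrushin families.** -/
theorem hx_dob (X : BD S θ β) (hb : BaseQ X fun _ => 0) {ia : ℕ} (hi0 : 0 < ia) (hil : ia < S.l)
    (hk : ∀ᶠ n in X.L, X.k n = ia * n) (hd : pdir S.p 0 = 0) (hda : pdir S.p ia = 0) :
    ∃ σ : ℝ, 0 < σ ∧ HX X σ := by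
  have hl : NeZero S.l := ⟨by have := S.poly.1; omega⟩
  have htp0 := S.tp0
  have htp1 := S.tp1
  obtain ⟨c, hc, hsep⟩ := sepE_of X hb (Or.inr (Or.inr ⟨ia, 0, hi0, hil, by
    filter_upwards [hk] with n hn
    rw [hn]
    push_cast
    simp⟩))
  obtain ⟨c', hc', hR⟩ := H825.Reg.s_REG_tr S.poly S.enc htp0 htp1 (bc := .dob ia S.tp)
    ⟨hi0, hil, htp0, htp1⟩
  obtain ⟨σ, hσ, s1, s2⟩ : ∃ σ : ℝ, 0 < σ ∧ σ ≤ c ∧ σ ≤ c' :=
    ⟨min c c', lt_min hc hc', min_le_left _ _, min_le_right _ _⟩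
  refine ⟨σ, hσ, ?_⟩
  filter_upwards [hsep, pos_X X hb, hk, X.le hR] with n g1 hp hk hR a τ hτ
  obtain ⟨h1, h2, h3, h4, h5⟩ := hp
  simp only [add_zero] at h2 h3 h5
  have hs : ∀ j : ℕ, (fun i => X.q n i + E6.dir a) (j : ZMod (X.N n)) =
      PN S.p n (j + ⌊S.tp * n⌋₊) + E6.dir a := fun j => by
    show X.q n (j : ZMod (X.N n)) + E6.dir a = _
    rw [h5 j]
  have hB := bd_add hτ (E6.dir a)
  have h6 : (ia + 1) * n ≤ S.l * n := Nat.mul_le_mul_right n hil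
  rw [add_mul, one_mul] at h6
  have h7 : n ≤ ia * n := Nat.le_mul_of_pos_left n hi0
  refine ⟨sepL_mono (g1 τ hτ) (Nat.floor_le_floor
    (mul_le_mul_of_nonneg_right s1 (Nat.cast_nonneg n))), ?_, ?_⟩
  · obtain ⟨f1, -⟩ := flat_base (a := E6.dir a) (q := fun i => X.q n i + E6.dir a) S.poly h1 h4 h2 h3
      hs hB hd
    refine Cls.dob (by omega) (by omega) f1
      (H135.Br.u_flat (q := fun i => X.q n i + E6.dir a) S.poly h1 hs hB (ia := ia) (by omega) h2 h3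
        (by rw [hk])) ?_
    rw [H135.Br.vec_u (q := fun i => X.q n i + E6.dir a) S.poly h1 hs hB, hk, add_comm (ia * n),
      Nat.add_mul_div_right _ _ h1, Nat.div_eq_of_lt h3, zero_add, hda]
    rfl
  · obtain ⟨η, e1, e2⟩ := hR (E6.dir a)
    refine ⟨η, dob_cast h1 h4 h5 ?_, e2.mono (Int.floor_le_floor
      (mul_le_mul_of_nonneg_right s2 (Nat.cast_nonneg n)))⟩
    have e3 : (Bc.dob ia S.tp).ka S.l n ⌊S.tp * (n : ℝ)⌋₊ = X.k n := by
      rw [hk]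
      show kOf S.l n ⌊S.tp * n⌋₊ ia ⌊S.tp * n⌋₊ = ia * n
      unfold kOf
      split_ifs <;> omega
    rw [e3] at e1
    exact e1

end Vale.Agent.P167.H601.M
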