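import Vale.Agent.P167.H601.M.Top

/-!
# P167, general `q`, block Q-LAM (MomT): the products at two radii, with the segments of the domain
-/

namespace Vale.Agent.P167.H601.M

open Finset
open Vale.Agent.P167.E6 (IsPolygon Encloses)
open Vale.Agent.P167.BR
open Vale.Agent.P167.FK (Bq Ex Good RSW cf)
open Vale.Agent.P167.FKA (Loc Ex_mono Ex_congr Ex_const Ex_mul_left Ex_nonneg)
open Vale.Agent.P167.H562.QM (MajA OneC Nr)
open Vale.Agent.P167.H975 (TX TX_loc)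
open Vale.Agent.P167.H601.LG
open Vale.Agent.P167.H601.S2

variable {n N L k : ℕ} {m₀ : ℤ} {q : ZMod N → ℤ × ℤ} {D : Finset (ℤ × ℤ)} {τ : ℕ → ℤ}
  {η ω : Cfg} {θ β c0 C1 Q : ℝ} {P : Finset ℕ} {I : ℤ → Cfg → ℝ} {cI : ℤ × ℤ} {Λ : ℤ} {E : ℕ}
  {r r' K : ℤ}

/-- One local factor at two radii. -/
theorem TX_upD (h0 : 0 < θ) (h1 : θ ≤ Real.pi / 3) (hS : Sit n N L m₀ q D k τ η) {j : ℕ}
    (hj : j < N) (hsj : Spe τ k j) (h21 : r' ≤ r) (hr : 6 * r < n) (hrL : 4 * r < L)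
    {A0 : ℝ} (hA0 : 1 ≤ A0) (hw0 : ∀ A ∈ pcs ω D,
      (∀ e ∈ A, hdv e ∈ Bq (q (j : ZMod N)) r) → 0 ≤ wJ θ β q D k τ A)
    (hw1 : ∀ A ∈ pcs ω D, wJ θ β q D k τ A ≤ A0) {t : ℝ} (ht : t ≤ r' / 16) {M : ℕ}
    (hM : MajA D t ω M) :
    TX (wJ θ β q D k τ) D (q (j : ZMod N)) r ω ≤
      A0 ^ M * TX (wJ θ β q D k τ) D (q (j : ZMod N)) r' ω := by
  classical
  unfold TX
  refine prod_cmp (fun A _ h e he => Bq_sub h21 (h e he)) hA0 hw0 (fun A hA _ => hw1 A hA) ?_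
  refine card_zone (θ := θ) (β := β) (k := k) h0 h1 hS.geo hS.poly hS.enc (r' := r') ?_ ht hM
    (filter_subset _ _) fun A hA => ?_
  · have := hS.geo.pos
    by_cases h : 0 ≤ r <;> omega
  · rw [mem_filter] at hA
    obtain ⟨hA1, ⟨hA2, hA3⟩, hA4⟩ := hA
    refine ⟨hA4, fun i hi hsi hin => ?_⟩
    obtain ⟨e, he⟩ := pcs_nonempty hA1
    by_cases hij : i = j
    · subst hij
      exact hA3 hin
    · have h3 := spe_far hS.geo hS.sep hi hj hij hsi hsj (d := 2 * r) (by omega) (by omega)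
      have h4 := nm_of_Bq (hin e he)
      have h5 := nm_of_Bq (hA2 e he)
      have h6 := nm_tri' (q (i : ZMod N)) (hdv e) (q (j : ZMod N))
      have h7 := nm_comm (q (i : ZMod N)) (hdv e)
      omega

/-- The product at two radii. -/
theorem TT_upD (h0 : 0 < θ) (h1 : θ ≤ Real.pi / 3) (hS : Sit n N L m₀ q D k τ η) {ms : ℕ}
    (hPc : P.card ≤ ms) (hP : ∀ j ∈ P, j < N ∧ Spe τ k j) (hI : ExtI Q D η I cI Λ E K C1 r)
    (h21 : r' ≤ r) (hr1 : 1 ≤ r') (hr : 6 * r < n) (hrL : 4 * r < L) (hc0 : 0 ≤ c0)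
    (hw : Wl θ β q D k τ P c0 r) {t : ℝ} (ht : t ≤ r' / 16) {M : ℕ} (hM : MajA D t ω M) :
    TT θ β q D k τ I P r ω ≤ (1 / Real.sin θ + 1 / Real.sin (2 * θ)) ^ (ms * M) *
      TT θ β q D k τ I P r' ω := by
  have hA0 := one_le_A0 h0 h1
  obtain ⟨A0, hA0d⟩ : ∃ A0 : ℝ, A0 = 1 / Real.sin θ + 1 / Real.sin (2 * θ) := ⟨_, rfl⟩
  rw [← hA0d] at hA0 ⊢
  have hwA : ∀ A ∈ pcs ω D, wJ θ β q D k τ A ≤ A0 := fun A hA => by
    rw [hA0d]
    exact (le_abs_self _).trans (abs_wJ_le h0 h1 hS.poly hS.enc hA)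
  have hPT : PT θ β q D k τ P r ω ≤ A0 ^ (ms * M) * PT θ β q D k τ P r' ω := by
    unfold PT
    calc ∏ j ∈ P, TX (wJ θ β q D k τ) D (q (j : ZMod N)) r ω
        ≤ ∏ j ∈ P, (A0 ^ M * TX (wJ θ β q D k τ) D (q (j : ZMod N)) r' ω) :=
          prod_le_prod (fun j hj => hw.nonneg hc0 hj ω) fun j hj =>
            TX_upD h0 h1 hS (hP j hj).1 (hP j hj).2 h21 hr hrL hA0
              (fun A hA h => hc0.trans (hw j hj ω A hA h)) hwA ht hM
      _ = (A0 ^ M) ^ P.card * ∏ j ∈ P, TX (wJ θ β q D k τ) D (q (j : ZMod N)) r' ω := by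
          rw [prod_mul_distrib, prod_const]
      _ ≤ _ := by
          refine mul_le_mul_of_nonneg_right ?_
            (prod_nonneg fun j hj => (hw.mono h21).nonneg hc0 hj ω)
          rw [← pow_mul, mul_comm ms M]
          exact pow_le_pow_right₀ hA0 (Nat.mul_le_mul_left M hPc)
  rw [TT_eq, TT_eq]
  calc I r ω * PT θ β q D k τ P r ω
      ≤ I r' ω * (A0 ^ (ms * M) * PT θ β q D k τ P r' ω) :=
        mul_le_mul (hI.mono r' r ω hr1 h21 le_rfl) hPT (hw.pnonneg hc0 ω) (hI.nn _ _)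
    _ = _ := by ring

theorem ExtI.le_K {K' : ℤ} (h : ExtI Q D η I cI Λ E K C1 r) (hK : K ≤ K') :
    ExtI Q D η I cI Λ E K' C1 r :=
  ⟨h.one, h.nn, h.mono, h.loc, fun r' r'' h1 h2 h3 h4 => h.ext r' r'' (hK.trans h1) h2 h3 h4⟩

theorem ExtI.le_r (h : ExtI Q D η I cI Λ E K C1 r) (hr : r' ≤ r) :
    ExtI Q D η I cI Λ E K C1 r' :=
  ⟨h.one, h.nn, fun a b ω h1 h2 h3 => h.mono a b ω h1 h2 (h3.trans hr),
    fun a h1 h2 => h.loc a h1 (h2.trans hr),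
    fun a b h1 h2 h3 h4 => h.ext a b h1 h2 (h3.trans hr) h4⟩

/-- The product does not read the squares of the domain off the boxes. -/
theorem TT_loc (hI : ExtI Q D η I cI Λ E K C1 r) (h1 : 1 ≤ r') (h2 : r' ≤ r) {x : ℝ}
    (hx : (r' : ℝ) ≤ x) {X : Finset (ℤ × ℤ)} (hX : ∀ j ∈ P, q (j : ZMod N) ∈ X) (hc : cI ∈ X)
    (ω ω' : Cfg) (h : ∀ v, ¬ (v ∈ D ∧ ∀ y ∈ X, x < (nm (v - y) : ℝ)) → ω v = ω' v) :
    TT θ β q D k τ I P r' ω = TT θ β q D k τ I P r' ω' := by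
  have hb : ∀ b ∈ P, TX (wJ θ β q D k τ) D (q (b : ZMod N)) r' ω =
      TX (wJ θ β q D k τ) D (q (b : ZMod N)) r' ω' := by
    intro b hb
    refine TX_loc _ _ _ _ ω ω' fun v hv => h v ?_
    rintro ⟨-, hv1⟩
    have h5 := nm_of_Bq (mem_inter.1 hv).1
    have h6 := hv1 _ (hX b hb)
    have h7 : (nm (v - q (b : ZMod N)) : ℝ) ≤ r' := by exact_mod_cast h5
    linarith
  have hI' : I r' ω = I r' ω' := by
    refine hI.loc _ h1 h2 ω ω' fun v hv => h v ?_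
    rintro ⟨-, hv1⟩
    have h5 := nm_of_Bq hv
    have h6 := hv1 _ hc
    have h7 : (nm (v - cI) : ℝ) ≤ r' := by exact_mod_cast h5
    linarith
  unfold TT
  rw [hI', prod_congr rfl hb]

end Vale.Agent.P167.H601.M
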