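import Vale.Agent.P167.H601.M.Cmp

/-!
# P167, general `q`, block Q-LAM (MomT): moments of the number of the large segments of the domain
-/

namespace Vale.Agent.P167.H601.M

open Finset
open Vale.Agent.P167.E6 (IsPolygon Encloses)
open Vale.Agent.P167.BR
open Vale.Agent.P167.FK (Bq Ex Good RSW cf)
open Vale.Agent.P167.FKA (Loc Ex_mono Ex_congr Ex_const Ex_mul_left Ex_nonneg)
open Vale.Agent.P167.H562.QM (MajA OneC Nr)
open Vale.Agent.P167.H601.LG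
open Vale.Agent.P167.H601.S2

/-- The parameter of the exponential. -/
theorem exists_s1 {A0 c0 s : ℝ} (hA0 : 1 ≤ A0) (hc0 : 0 < c0) (hs : 0 ≤ s) (ms : ℕ) :
    ∃ s1 : ℝ, 0 < s1 ∧ A0 ≤ Real.exp (s1 / 2) ∧ A0 ^ ms ≤ Real.exp (s1 / 2) ∧
      Real.exp (-(s1 / 4)) ≤ c0 ∧ s ≤ s1 / 2 := by
  have hl : 0 ≤ Real.log A0 := Real.log_nonneg hA0
  have hm : (0 : ℝ) ≤ ms := Nat.cast_nonneg ms
  have hml : 0 ≤ (ms : ℝ) * Real.log A0 := mul_nonneg hm hl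
  have hac : 0 ≤ |Real.log c0| := abs_nonneg _
  have hA : 0 < A0 := by linarith
  have h2 : A0 = Real.exp (Real.log A0) := (Real.exp_log hA).symm
  have h3 : A0 ^ ms = Real.exp (ms * Real.log A0) := by
    rw [Real.exp_nat_mul, Real.exp_log hA]
  refine ⟨2 * ((ms + 1) * Real.log A0) + 4 * |Real.log c0| + 2 * s + 1, by nlinarith, ?_, ?_, ?_,
    by nlinarith⟩
  · nth_rewrite 1 [h2]
    refine Real.exp_le_exp.2 ?_
    nlinarith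
  · rw [h3]
    refine Real.exp_le_exp.2 ?_
    nlinarith
  · rw [← Real.exp_log hc0]
    nth_rewrite 2 [← Real.exp_log hc0]
    refine Real.exp_le_exp.2 ?_
    rw [Real.exp_log hc0]
    have := neg_abs_le (Real.log c0)
    nlinarith

/-- The radii for large `n`. -/
theorem exists_n (ρ σ : ℝ) (hρ : 0 < ρ) (hρσ : 16 * ρ < σ) (E : ℕ) (hE : 1 ≤ E) (K : ℤ) (j : ℕ) :
    ∃ n₀ : ℕ, ∀ n : ℕ, n₀ ≤ n → 16 * ⌊ρ * n⌋ < (⌊σ * n⌋₊ : ℤ) ∧ 4 * ⌊ρ * n⌋ ≤ ⌊σ * n⌋ ∧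
      (∀ i ≤ j, E * K ≤ rr ⌊ρ * n⌋ E i) ∧
      ρ / (32 * (E : ℝ) ^ j) * n ≤ (rr ⌊ρ * n⌋ E j : ℝ) / 16 ∧
      ρ / (32 * (E : ℝ) ^ j) * n ≤ ⌊σ * n⌋ := by
  have hE' : (1 : ℝ) ≤ E := by exact_mod_cast hE
  have hEj : (1 : ℝ) ≤ (E : ℝ) ^ j := one_le_pow₀ hE'
  obtain ⟨n₀, hn₀⟩ := exists_nat_ge (2 / (σ - 16 * ρ) + 2 / σ + 4 * (E : ℝ) ^ j / ρ +
    (|(K : ℝ)| * E * (E : ℝ) ^ j + 1) / ρ)
  have hσ : 0 < σ := by linarith
  have hd : 0 < σ - 16 * ρ := by linarith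
  have p1 : 0 ≤ 2 / (σ - 16 * ρ) := by positivity
  have p2 : 0 ≤ 2 / σ := by positivity
  have p3 : 0 ≤ 4 * (E : ℝ) ^ j / ρ := by positivity
  have p4 : 0 ≤ (|(K : ℝ)| * E * (E : ℝ) ^ j + 1) / ρ := by positivity
  refine ⟨n₀, fun n hn => ?_⟩
  have hn' : (n₀ : ℝ) ≤ n := by exact_mod_cast hn
  have q1 : 2 / (σ - 16 * ρ) ≤ n := by linarith
  have q2 : 2 / σ ≤ n := by linarith
  have q3 : 4 * (E : ℝ) ^ j / ρ ≤ n := by linarith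
  have q4 : (|(K : ℝ)| * E * (E : ℝ) ^ j + 1) / ρ ≤ n := by linarith
  rw [div_le_iff₀ hd] at q1
  rw [div_le_iff₀ hσ] at q2
  rw [div_le_iff₀ hρ] at q3 q4
  have hfl : (⌊ρ * n⌋ : ℝ) ≤ ρ * n := Int.floor_le _
  have hfl' : ρ * n < ⌊ρ * n⌋ + 1 := Int.lt_floor_add_one _
  have hρn : 0 ≤ ρ * n := by positivity
  have hr0 : 0 ≤ ⌊ρ * n⌋ := Int.floor_nonneg.2 hρn
  refine ⟨?_, ?_, fun i hi => ?_, ?_, ?_⟩
  · have h1 : σ * n < (⌊σ * n⌋₊ : ℝ) + 1 := Nat.lt_floor_add_one _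
    have h2 : (16 * ⌊ρ * n⌋ : ℝ) < (⌊σ * n⌋₊ : ℝ) := by nlinarith
    exact_mod_cast h2
  · refine Int.le_floor.2 ?_
    push_cast
    nlinarith
  · have h1 : (E : ℤ) * K * (E : ℤ) ^ j ≤ ⌊ρ * n⌋ := by
      refine Int.le_floor.2 ?_
      push_cast
      have h2 : (K : ℝ) ≤ |(K : ℝ)| := le_abs_self _
      have h3 : (E : ℝ) * K * (E : ℝ) ^ j ≤ |(K : ℝ)| * E * (E : ℝ) ^ j := by
        have h4 : (E : ℝ) * K ≤ |(K : ℝ)| * E := by nlinarith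
        exact mul_le_mul_of_nonneg_right h4 (by positivity)
      linarith
    refine le_trans ?_ (rr_anti hr0 E hi)
    unfold rr
    rw [Int.le_ediv_iff_mul_le (by positivity)]
    exact h1
  · have h1 : ρ * n / (E : ℝ) ^ j - 2 ≤ rr ⌊ρ * n⌋ E j := by
      have h2 : (⌊ρ * n⌋ : ℤ) < (rr ⌊ρ * n⌋ E j + 1) * (E : ℤ) ^ j := by
        unfold rr
        exact Int.lt_ediv_add_one_mul_self _ (by positivity)
      have h3 : (⌊ρ * n⌋ : ℝ) < ((rr ⌊ρ * n⌋ E j : ℝ) + 1) * (E : ℝ) ^ j := by exact_mod_cast h2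
      have h4 : ρ * n / (E : ℝ) ^ j ≤ (rr ⌊ρ * n⌋ E j : ℝ) + 2 := by
        rw [div_le_iff₀ (by positivity)]
        nlinarith
      linarith
    have h2 : 4 ≤ ρ * n / (E : ℝ) ^ j := by
      rw [le_div_iff₀ (by positivity)]
      linarith
    have h3 : ρ / (32 * (E : ℝ) ^ j) * n = ρ * n / (E : ℝ) ^ j / 32 := by
      field_simp
    rw [h3]
    linarith
  · have h1 : ρ / (32 * (E : ℝ) ^ j) ≤ ρ := by
      refine div_le_self hρ.le ?_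
      linarith
    have h2 : ρ / (32 * (E : ℝ) ^ j) * n ≤ ρ * n :=
      mul_le_mul_of_nonneg_right h1 (Nat.cast_nonneg n)
    have h3 : σ * n < ⌊σ * n⌋ + 1 := Int.lt_floor_add_one _
    nlinarith

end Vale.Agent.P167.H601.M
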