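import Vale.Agent.P167.H601.M.Core

/-!
# P167, general `q`, block Q-LAM (MomT): moments of the number of the large segments of the domain
-/

namespace Vale.Agent.P167.H601.M

open Finset
open Vale.Agent.P167.E6 (IsPolygon Encloses)
open Vale.Agent.P167.BR
open Vale.Agent.P167.FK (Bq Ex Good RSW cf)
open Vale.Agent.P167.FKA (Loc Ex_mono Ex_congr Ex_const Ex_mul_left Ex_nonneg)
open Vale.Agent.P167.H562.QM (MajA OneC Nr)
open Vale.Agent.P167.H601.LG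
open Vale.Agent.P167.H601.S2

/-- **Moments of the number of the large segments of the domain**, weighted by the local factors. -/
theorem core {θ : ℝ} (h0 : 0 < θ) (h1 : θ ≤ Real.pi / 3) (hR : RSW (2 * Real.cos θ)) (ms : ℕ)
    {c0 : ℝ} (hc0 : 0 < c0) (hc1 : c0 ≤ 1) {Rd σ : ℝ} (hRd : 0 ≤ Rd) (KE : ℕ → ℤ)
    (CE : ℕ → ℝ) (hCE : ∀ E, 1 ≤ CE E) {ρ : ℝ} (hρ : 0 < ρ) (hρ1 : 24 * ρ < 1)
    (hρσ : 16 * ρ < σ) {κ s : ℝ} (hκ : 0 < κ) (hs : 0 ≤ s) :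
    ∃ (E : ℕ) (c C : ℝ) (n₀ : ℕ), 0 < c ∧ 0 < C ∧ ∀ n : ℕ, n₀ ≤ n →
      ∀ {N : ℕ} {q : ZMod N → ℤ × ℤ} {D : Finset (ℤ × ℤ)} {k : ℕ} {τ : ℕ → ℤ} {β : ℝ}
        (P : Finset ℕ) (cI x₀ : ℤ × ℤ), P.card ≤ ms → (∀ v ∈ D, (nm (v - x₀) : ℝ) ≤ Rd * n) →
      ∀ z : ℤ × ℤ, ∃ Nf : Cfg → ℕ,
        (∀ ω ω' : Cfg, (∀ v : ℤ × ℤ, c * n < (nm (v - z) : ℝ) → ω v = ω' v) → Nf ω = Nf ω') ∧
        (∀ ω, MajA D (κ * n) ω (Nf ω)) ∧
        ∀ (I : ℤ → Cfg → ℝ) (Λ : ℤ) (η : Cfg), Sit n N ⌊σ * n⌋₊ ⌊σ * n⌋ q D k τ η →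
          (∀ j ∈ P, j < N ∧ Spe τ k j) → Wl θ β q D k τ P c0 ⌊ρ * n⌋ →
          ExtI (2 * Real.cos θ) D η I cI Λ E (KE E) (CE E) ⌊ρ * n⌋ →
          (∀ j ∈ P, (Λ + 4) * ⌊ρ * n⌋ < nm (q (j : ZMod N) - cI)) →
          Ex (2 * Real.cos θ) D η (fun ω => TT θ β q D k τ I P ⌊ρ * n⌋ ω *
            Real.exp (s * (Nf ω : ℝ))) ≤ C * Ex (2 * Real.cos θ) D η
              (TT θ β q D k τ I P ⌊ρ * n⌋) := by
  classical
  have hcos : 1 / 2 ≤ Real.cos θ := by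
    rw [← Real.cos_pi_div_three]
    exact Real.cos_le_cos_of_nonneg_of_le_pi h0.le (by linarith [Real.pi_pos]) h1
  have hQ : 1 ≤ 2 * Real.cos θ := by linarith
  have hQ0 : 0 < 2 * Real.cos θ := by linarith
  have hA0 := one_le_A0 h0 h1
  obtain ⟨A0, hA0d⟩ : ∃ A0 : ℝ, A0 = 1 / Real.sin θ + 1 / Real.sin (2 * θ) := ⟨_, rfl⟩
  rw [← hA0d] at hA0
  obtain ⟨s1, hs1, hsA, hsA', hsc, hss⟩ := exists_s1 hA0 hc0 hs ms
  obtain ⟨e1, he1, HT⟩ := top_num hQ hR (ms + 2)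
  have hp : 0 < 1 + |2 * s1| := by positivity
  obtain ⟨E0, hE0⟩ := exists_nat_ge (32 * (1 + |2 * s1|) / e1)
  obtain ⟨E, hE0E, hE2, HM⟩ := mom_main h0 h1 hR ms hc0 hc1 hs1 (by rw [← hA0d]; exact hsA) hsc E0
  have hE1 : 1 ≤ E := by omega
  have hE1' : (1 : ℝ) ≤ E := by exact_mod_cast hE1
  obtain ⟨K, hKE, hK1, HM⟩ := HM (KE E)
  -- the number of the scales
  obtain ⟨j, hj⟩ : ∃ j : ℕ, ρ / (32 * (E : ℝ) ^ j) ≤ κ := by
    have hE2' : (1 : ℝ) < E := by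
      have : (2 : ℝ) ≤ E := by exact_mod_cast hE2
      linarith
    obtain ⟨j, hj⟩ := pow_unbounded_of_one_lt (ρ / κ) hE2'
    refine ⟨j, ?_⟩
    rw [div_le_iff₀ (by positivity)]
    rw [div_lt_iff₀ hκ] at hj
    have : 0 ≤ κ * (E : ℝ) ^ j := by positivity
    nlinarith
  obtain ⟨κ', hκ'⟩ : ∃ κ' : ℝ, κ' = ρ / (32 * (E : ℝ) ^ j) := ⟨_, rfl⟩
  have hEj : 0 < (E : ℝ) ^ j := by positivity
  have hκ'0 : 0 < κ' := by rw [hκ']; positivity
  obtain ⟨C', n₁, hC', HT⟩ := HT κ' Rd (2 * s1) hκ'0 hRd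
  obtain ⟨Y, hY1, HM⟩ := HM (CE E) (max 1 C') (hCE E) (le_trans zero_le_one (le_max_left _ _))
  obtain ⟨n₂, hn₂⟩ := exists_n ρ σ hρ hρσ E hE1 K j
  have hCE0 : 0 ≤ CE E * Y := by
    have := hCE E
    positivity
  refine ⟨E, e1 * κ' / (1 + |2 * s1|), Y ^ 4 * (CE E * Y) ^ j, max (max n₁ n₂) 1, by positivity,
    by have := hCE E; positivity, fun n hn N q D k τ β P cI x₀ hPc hdia z => ?_⟩
  have hn1 : n₁ ≤ n := (le_max_left _ _).trans ((le_max_left _ _).trans hn)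
  have hn2 : n₂ ≤ n := (le_max_right _ _).trans ((le_max_left _ _).trans hn)
  have hn3 : 1 ≤ n := (le_max_right _ _).trans hn
  obtain ⟨r1, r2, r3, r4, r5⟩ := hn₂ n hn2
  obtain ⟨X, hX⟩ : ∃ X : Finset (ℤ × ℤ), X = P.image (fun i : ℕ => q (i : ZMod N)) ∪ {cI, z} :=
    ⟨_, rfl⟩
  have hXc : X.card ≤ ms + 2 := by
    rw [hX]
    refine (card_union_le _ _).trans (add_le_add (card_image_le.trans hPc) ?_)
    exact card_le_two
  have hXP : ∀ i ∈ P, q (i : ZMod N) ∈ X := fun i hi => by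
    rw [hX]
    exact mem_union_left _ (mem_image_of_mem _ hi)
  have hXc' : cI ∈ X := by rw [hX]; simp
  have hXz : z ∈ X := by rw [hX]; simp
  obtain ⟨Nf, t1, t2, t3⟩ := HT n hn1 x₀ D hdia X hXc
  refine ⟨Nf, fun ω ω' h => t1 ω ω' fun v hv => h v (hv z hXz), fun ω => MajA_mono (t2 ω) ?_, ?_⟩
  · rw [hκ']
    exact mul_le_mul_of_nonneg_right hj (Nat.cast_nonneg n)
  intro I Λ η hS hP hw hI hfI
  obtain ⟨r, hr⟩ : ∃ r : ℤ, r = ⌊ρ * n⌋ := ⟨_, rfl⟩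
  have hrn : (r : ℝ) ≤ ρ * n := by rw [hr]; exact Int.floor_le _
  rw [← hr] at r1 r2 r3 r4 hw hI hfI ⊢
  have hnpos : (1 : ℝ) ≤ n := by exact_mod_cast hn3
  have hr0 : 0 ≤ r := by
    rw [hr]
    exact Int.floor_nonneg.2 (by positivity)
  have h24 : 24 * r < n := by
    have : (24 * r : ℝ) < n := by nlinarith
    exact_mod_cast this
  -- the scales
  have hle : ∀ i, rr r E i ≤ r := fun i => by
    have := rr_anti hr0 E (Nat.zero_le i)
    rwa [rr_zero] at this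
  have hnn : ∀ i, 0 ≤ rr r E i := fun i => rr_nonneg hr0 E i
  have hΛ : 0 ≤ Λ + 4 := by have := hI.one; omega
  have hstep : ∀ i ≤ j, ∀ N0 : Cfg → ℝ, (∀ ω, 0 ≤ N0 ω) →
      Ex (2 * Real.cos θ) D η (fun ω => TT θ β q D k τ I P (rr r E i / E) ω *
        Real.exp (2 * s1 * N0 ω)) ≤ max 1 C' * Ex (2 * Real.cos θ) D η
          (TT θ β q D k τ I P (rr r E i / E)) →
      Ex (2 * Real.cos θ) D η (fun ω => TT θ β q D k τ I P (rr r E i) ω *
        Real.exp (s1 * N0 ω)) ≤ Y ^ 4 * Ex (2 * Real.cos θ) D η (TT θ β q D k τ I P (rr r E i)) ∧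
      Ex (2 * Real.cos θ) D η (TT θ β q D k τ I P (rr r E i / E)) ≤
        CE E * Y * Ex (2 * Real.cos θ) D η (TT θ β q D k τ I P (rr r E i)) := by
    intro i hi N0 hN0 hM0
    have h4 := hle i
    have := HM hS P hP hPc (rr r E i) (r3 i hi) (by omega) (by omega) (by omega)
      (hw.mono h4) I cI Λ (ExtI.le_r (ExtI.le_K hI hKE) h4) (fun a ha => ?_) N0 hN0 hM0
    · exact ⟨this.1, this.2.1⟩
    · exact lt_of_le_of_lt (mul_le_mul_of_nonneg_left h4 hΛ) (hfI a ha)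
  -- comparison of the scales
  have hiter : ∀ i ≤ j, Ex (2 * Real.cos θ) D η (TT θ β q D k τ I P (rr r E i)) ≤
      (CE E * Y) ^ i * Ex (2 * Real.cos θ) D η (TT θ β q D k τ I P r) := by
    intro i
    induction i with
    | zero =>
      intro _
      rw [rr_zero, pow_zero, one_mul]
    | succ i ih =>
      intro hi
      have h3 := (hstep i (by omega) (fun _ => 0) (fun _ => le_rfl) (by
        simp only [mul_zero, Real.exp_zero, mul_one]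
        refine le_mul_of_one_le_left (Ex_nonneg hQ0 fun S _ => ?_) (le_max_left _ _)
        rw [← rr_succ]
        exact mul_nonneg (hI.nn _ _) ((hw.mono (hle _)).pnonneg hc0.le _))).2
      rw [rr_succ]
      refine h3.trans ?_
      have h5 := mul_le_mul_of_nonneg_left (ih (by omega)) hCE0
      have h6 : CE E * Y * ((CE E * Y) ^ i * Ex (2 * Real.cos θ) D η (TT θ β q D k τ I P r)) =
          (CE E * Y) ^ (i + 1) * Ex (2 * Real.cos θ) D η (TT θ β q D k τ I P r) := by ring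
      rwa [h6] at h5
  -- the moments at the last scale
  have hEK : E * K ≤ rr r E j := r3 j le_rfl
  have hEpos : (0 : ℤ) < E := by exact_mod_cast (by omega : 0 < E)
  have hKj : K ≤ rr r E (j + 1) := by
    rw [rr_succ, Int.le_ediv_iff_mul_le hEpos, mul_comm]
    exact hEK
  have hT0 : ∀ i ω, 0 ≤ TT θ β q D k τ I P (rr r E i) ω := fun i ω =>
    mul_nonneg (hI.nn _ _) ((hw.mono (hle i)).pnonneg hc0.le ω)
  have hrad : (rr r E (j + 1) : ℝ) ≤ e1 * κ' / (1 + |2 * s1|) * n := by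
    have h3 : (rr r E (j + 1) : ℝ) * (E : ℝ) ^ (j + 1) ≤ r := by
      have h4 : rr r E (j + 1) * (E : ℤ) ^ (j + 1) ≤ r := by
        unfold rr
        exact Int.ediv_mul_le _ (by positivity)
      exact_mod_cast h4
    have h5 : 32 * (1 + |2 * s1|) / e1 ≤ E := hE0.trans (by exact_mod_cast hE0E)
    rw [div_le_iff₀ he1] at h5
    have h6 : (rr r E (j + 1) : ℝ) * (E : ℝ) ^ (j + 1) ≤ ρ * n := h3.trans hrn
    rw [hκ']
    have h7 : e1 * (ρ / (32 * (E : ℝ) ^ j)) / (1 + |2 * s1|) * n =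
        (ρ * n) * e1 / (32 * (E : ℝ) ^ j * (1 + |2 * s1|)) := by
      field_simp
    rw [h7, le_div_iff₀ (by positivity)]
    have h8 : (rr r E (j + 1) : ℝ) * (32 * (E : ℝ) ^ j * (1 + |2 * s1|)) =
        ((rr r E (j + 1) : ℝ) * (E : ℝ) ^ j) * (32 * (1 + |2 * s1|)) := by ring
    rw [h8]
    have h9 : (0 : ℝ) ≤ (rr r E (j + 1) : ℝ) * (E : ℝ) ^ j := by
      have : (0 : ℝ) ≤ rr r E (j + 1) := by exact_mod_cast hnn (j + 1)
      positivity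
    calc ((rr r E (j + 1) : ℝ) * (E : ℝ) ^ j) * (32 * (1 + |2 * s1|))
        ≤ ((rr r E (j + 1) : ℝ) * (E : ℝ) ^ j) * (E * e1) := mul_le_mul_of_nonneg_left h5 h9
      _ = ((rr r E (j + 1) : ℝ) * (E : ℝ) ^ (j + 1)) * e1 := by ring
      _ ≤ (ρ * n) * e1 := mul_le_mul_of_nonneg_right h6 he1.le
  have htop : Ex (2 * Real.cos θ) D η (fun ω => TT θ β q D k τ I P (rr r E j / E) ω *
        Real.exp (2 * s1 * (Nf ω : ℝ))) ≤ max 1 C' * Ex (2 * Real.cos θ) D η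
          (TT θ β q D k τ I P (rr r E j / E)) := by
    rw [← rr_succ]
    refine (t3 η ⌊σ * n⌋ hS.good hS.one (by rw [hκ']; exact r5)
      (TT θ β q D k τ I P (rr r E (j + 1))) (hT0 _) ?_).trans ?_
    · exact TT_loc hI (hK1.trans hKj) (hle _) hrad hXP hXc'
    · exact mul_le_mul_of_nonneg_right (le_max_right _ _) (Ex_nonneg hQ0 fun S _ => hT0 _ _)
  have hlast := (hstep j le_rfl (fun ω => (Nf ω : ℝ)) (fun ω => Nat.cast_nonneg _) htop).1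
  -- assembly
  have hup : ∀ ω, TT θ β q D k τ I P r ω * Real.exp (s * (Nf ω : ℝ)) ≤
      TT θ β q D k τ I P (rr r E j) ω * Real.exp (s1 * (Nf ω : ℝ)) := by
    intro ω
    have h3 := TT_upD (β := β) (ω := ω) (r' := rr r E j) h0 h1 hS hPc hP hI (hle j)
      (hK1.trans (hKj.trans (rr_le hr0 E j))) (by omega) (by omega) hc0.le hw
      (t := κ' * n) (by rw [hκ']; exact r4) (t2 ω)
    rw [← hA0d] at h3
    have h4 : A0 ^ (ms * Nf ω) ≤ Real.exp (s1 / 2 * (Nf ω : ℝ)) := by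
      rw [pow_mul, mul_comm (s1 / 2), Real.exp_nat_mul]
      exact pow_le_pow_left₀ (by positivity) hsA' _
    have h5 : Real.exp (s * (Nf ω : ℝ)) ≤ Real.exp (s1 / 2 * (Nf ω : ℝ)) :=
      Real.exp_le_exp.2 (mul_le_mul_of_nonneg_right hss (Nat.cast_nonneg _))
    have h6 : Real.exp (s1 * (Nf ω : ℝ)) =
        Real.exp (s1 / 2 * (Nf ω : ℝ)) * Real.exp (s1 / 2 * (Nf ω : ℝ)) := by
      rw [← Real.exp_add]
      congr 1
      ring
    rw [h6]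
    calc TT θ β q D k τ I P r ω * Real.exp (s * (Nf ω : ℝ))
        ≤ (A0 ^ (ms * Nf ω) * TT θ β q D k τ I P (rr r E j) ω) * Real.exp (s * (Nf ω : ℝ)) :=
          mul_le_mul_of_nonneg_right h3 (Real.exp_pos _).le
      _ ≤ (Real.exp (s1 / 2 * (Nf ω : ℝ)) * TT θ β q D k τ I P (rr r E j) ω) *
          Real.exp (s1 / 2 * (Nf ω : ℝ)) :=
          mul_le_mul (mul_le_mul_of_nonneg_right h4 (hT0 _ _)) h5 (Real.exp_pos _).le
            (mul_nonneg (Real.exp_pos _).le (hT0 _ _))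
      _ = _ := by ring
  calc Ex (2 * Real.cos θ) D η (fun ω => TT θ β q D k τ I P r ω * Real.exp (s * (Nf ω : ℝ)))
      ≤ Ex (2 * Real.cos θ) D η (fun ω => TT θ β q D k τ I P (rr r E j) ω *
          Real.exp (s1 * (Nf ω : ℝ))) := Ex_mono hQ0 fun S _ => hup _
    _ ≤ Y ^ 4 * Ex (2 * Real.cos θ) D η (TT θ β q D k τ I P (rr r E j)) := hlast
    _ ≤ Y ^ 4 * ((CE E * Y) ^ j * Ex (2 * Real.cos θ) D η (TT θ β q D k τ I P r)) :=
        mul_le_mul_of_nonneg_left (hiter j le_rfl) (by positivity)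
    _ = _ := by ring

end Vale.Agent.P167.H601.M
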