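import Vale.Agent.P167.H601.M.Glue

/-!
# P167, general `q`, block Q-LAM (MomT, U_S): the local factors of the polygons, three classes
-/

namespace Vale.Agent.P167.H601.M

open Finset
open Vale.Agent.P167.E6 (IsPolygon Encloses)
open Vale.Agent.P167.BR
open Vale.Agent.P167.FK (Bq Ex Good RSW cf)
open Vale.Agent.P167.FKA (Loc Ex_mono Ex_congr Ex_const Ex_mul_left Ex_nonneg)
open Vale.Agent.P167.H562.QM (MajA OneC)
open Vale.Agent.P167.H871 (Bd)
open Vale.Agent.P167.H632 (pr)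
open Vale.Agent.P167.H685.LD (JW Ea Ea_anti Ea_congr TX_jun)
open Vale.Agent.P167.H975 (TX TX_loc JB GoodB TX_base qr qr_poly qr_encl qr_base)
open Vale.Agent.P167.H601.LG
open Vale.Agent.P167.H601.S2

/-- The geometric part of `Pg.Ok`. -/
structure Geo (n : ℕ) (σ R : ℝ) {N : ℕ} (q : ZMod N → ℤ × ℤ) (D : Finset (ℤ × ℤ)) (k : ℕ)
    (τ : ℕ → ℤ) : Prop where
  geo : GeoN n N q τ
  poly : IsPolygon q
  enc : Encloses q D
  bd : Bd (D : Set (ℤ × ℤ)) N (fun i => q (i : ZMod N)) τ 1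
  sep : SepL ⌊σ * n⌋₊ N τ k
  kle : k ≤ N
  dia : ∃ x₀ : ℤ × ℤ, ∀ v ∈ D, (nm (v - x₀) : ℝ) ≤ R * n
  len : (N : ℝ) ≤ R * n

/-- **The three classes.** -/
inductive Cls {N : ℕ} (q : ZMod N → ℤ × ℤ) (k : ℕ) (τ : ℕ → ℤ) : Prop
  /-- Free or wired, the base is a convex corner. -/
  | cor : (k = 0 ∨ k = N) → τ N - τ (N - 1) = 1 → Cls q k τ
  /-- Dobrushin, the junction is in the interior of a side with direction `0`. -/
  | dob : 0 < k → k < N → τ N = τ (N - 1) → τ k = τ (k - 1) → Top.vec (τ k) = (1, 0) → Cls q k τ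
  /-- Free or wired, the base has the colour of the outside and is in the interior of a side with
  direction `0`. -/
  | flat (e : Bool) : GoodB N k e → τ N = τ (N - 1) → Top.vec (τ N) = (1, 0) →
      ((q 0).1 + (q 0).2) % 2 = pr e → Cls q k τ

open Classical in
/-- The special indices. -/
noncomputable def spx (N k : ℕ) (τ : ℕ → ℤ) : Finset ℕ := (range N).filter (Spe τ k)

theorem mem_spx {N k : ℕ} {τ : ℕ → ℤ} {j : ℕ} : j ∈ spx N k τ ↔ j < N ∧ Spe τ k j := by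
  classical
  unfold spx
  rw [mem_filter, mem_range]

theorem card_spx {L N k : ℕ} {τ : ℕ → ℤ} (hS : SepL L N τ k) (hL : 1 ≤ L) :
    (spx N k τ).card ≤ N / L + 1 := by
  classical
  rw [← card_range (N / L + 1)]
  refine card_le_card_of_injOn (fun j => j / L) (fun j hj => ?_) fun i hi j hj hij => ?_
  · rw [mem_coe, mem_spx] at hj
    rw [mem_coe, mem_range, Nat.lt_succ_iff]
    exact Nat.div_le_div_right hj.1.le
  · rw [mem_coe, mem_spx] at hi hj
    have key : ∀ a b : ℕ, a < b → b < N → Spe τ k a → Spe τ k b → a / L < b / L := by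
      intro a b hab hb h1 h2
      have h3 := (hS a b hab hb h1 h2).1
      have h4 : (a + L) / L ≤ b / L := Nat.div_le_div_right h3
      rw [Nat.add_div_right _ (by omega)] at h4
      omega
    by_contra hne
    dsimp only at hij
    rcases Nat.lt_or_gt_of_ne hne with h | h
    · have := key i j h hj.1 hi.2 hj.2
      omega
    · have := key j i h hi.1 hj.2 hi.2
      omega

/-- The points with positive local weights, the zero point and its factor. -/
structure Dta (Q θ β c0 : ℝ) {N : ℕ} (q : ZMod N → ℤ × ℤ) (D : Finset (ℤ × ℤ)) (k : ℕ)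
    (τ : ℕ → ℤ) (Λ : ℤ) (KE : ℕ → ℤ) (CE : ℕ → ℝ) (r : ℤ) (P : Finset ℕ) (cI : ℤ × ℤ)
    (I : ℤ → Cfg → ℝ) : Prop where
  sub : P ⊆ spx N k τ
  far : ∀ j ∈ P, (Λ + 4) * r < nm (q (j : ZMod N) - cI)
  wl : Wl θ β q D k τ P c0 r
  ext : ∀ η, Good η → ∀ E, ExtI Q D η I cI Λ E (KE E) (CE E) r
  eq : ∀ ω, ∏ j ∈ spx N k τ, TX (wJ θ β q D k τ) D (q (j : ZMod N)) r ω =
    TT θ β q D k τ I P r ω

/-- **The data of the three classes.** -/
theorem exists_data {θ : ℝ} (h0 : 0 < θ) (h1 : θ ≤ Real.pi / 3) : ∃ c0 : ℝ, 0 < c0 ∧ c0 ≤ 1 ∧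
    ∀ {Q : ℝ} {Λ : ℤ} {KE : ℕ → ℤ} {CE : ℕ → ℝ}, 0 < Q → ExtF Q Λ KE CE →
    ∀ {n : ℕ} {σ R : ℝ} {N : ℕ} {q : ZMod N → ℤ × ℤ} {D : Finset (ℤ × ℤ)} {k : ℕ} {τ : ℕ → ℤ},
      Geo n σ R q D k τ → Cls q k τ → ∀ r : ℤ, 1 ≤ r → 40 * ((Λ + 4) * (r + 1)) < n →
      40 * ((Λ + 4) * (r + 1)) < (⌊σ * n⌋₊ : ℤ) → ∃ (P : Finset ℕ) (cI : ℤ × ℤ)
        (I : ℤ → Cfg → ℝ), Dta Q θ ((θ - Real.pi) / 2) c0 q D k τ Λ KE CE r P cI I := by
  classical
  obtain ⟨c1, hc1, hc1', H1⟩ := exists_low_loc h0 h1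
  obtain ⟨c2, hc2, hc2', H2⟩ := low_cor h0 h1
  refine ⟨min c1 c2, lt_min hc1 hc2, (min_le_left _ _).trans hc1', ?_⟩
  intro Q Λ KE CE hQ hF n σ R N q D k τ hG hC r hr1 hn hL
  have hΛ := hF.1
  have hg := hG.geo
  -- small radii
  have e1 : (Λ + 4) * (r + 1) = Λ * r + Λ + 4 * r + 4 := by ring
  have hΛr : 1 ≤ Λ * r := by nlinarith
  have hΛr' : r ≤ Λ * r := by nlinarith
  rw [e1] at hn hL
  have hd : (Λ + 4) * r = Λ * r + 4 * r := by ring
  have hNn := hg.le
  rcases hC with ⟨hk, hcor⟩ | ⟨hk0, hkN, hfN, hfk, hdir⟩ | ⟨e, hB, hfN, hdir, hpar⟩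
  · -- corner base
    obtain ⟨c, hc⟩ := exists_far ((spx N k τ).image fun j : ℕ => q (j : ZMod N)) ((Λ + 4) * r)
    refine ⟨spx N k τ, c, fun _ _ => 1, Subset.refl _, fun j hj => hc _ (mem_image_of_mem _ hj),
      fun j hj ω A hA hin => ?_, fun η _ E => extI_one hF hQ D η c r E, fun ω => ?_⟩
    · obtain ⟨hjN, hjs⟩ := mem_spx.1 hj
      have hT : Typ N k τ ((θ - Real.pi) / 2) θ :=
        ⟨hG.kle, fun _ => hcor, fun a b => by omega, rfl⟩
      rcases H1 hg hG.poly hG.enc hA hG.sep hT (r := r) (by omega) (by omega) hjN hjs hin with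
        h | ⟨h, h', -⟩
      · exact (min_le_left _ _).trans h
      · omega
    · unfold TT
      rw [one_mul]
  · -- Dobrushin
    obtain ⟨e, he⟩ : ∃ e : Bool, ((q (k : ZMod N)).1 + (q (k : ZMod N)).2) % 2 = pr e := by
      rcases Int.emod_two_eq_zero_or_one ((q (k : ZMod N)).1 + (q (k : ZMod N)).2) with h | h
      · rcases (by decide : pr true = 0 ∨ pr false = 0) with h' | h'
        · exact ⟨true, h.trans h'.symm⟩
        · exact ⟨false, h.trans h'.symm⟩
      · rcases (by decide : pr true = 1 ∨ pr false = 1) with h' | h'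
        · exact ⟨true, h.trans h'.symm⟩
        · exact ⟨false, h.trans h'.symm⟩
    have hJ := jw_of (R := Λ * r + r + 2) hg hG.poly hG.enc hG.bd hG.sep hk0 hkN hfk hdir
      (by omega) (by omega) (by omega)
    have hks : k ∈ spx N k τ := mem_spx.2 ⟨hkN, Or.inr (Or.inl rfl)⟩
    refine ⟨(spx N k τ).erase k, q (k : ZMod N), _, erase_subset _ _, fun j hj => ?_,
      fun j hj ω A hA hin => ?_, fun η hη E => extI_ea hF hG.poly hG.enc hJ hη he (by omega) E,
      fun ω => ?_⟩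
    · obtain ⟨hne, hj⟩ := mem_erase.1 hj
      obtain ⟨hjN, hjs⟩ := mem_spx.1 hj
      exact spe_far hg hG.sep hjN hkN hne hjs (Or.inr (Or.inl rfl)) (by omega) (by omega)
    · obtain ⟨hne, hj⟩ := mem_erase.1 hj
      obtain ⟨hjN, hjs⟩ := mem_spx.1 hj
      have hT : Typ N k τ ((θ - Real.pi) / 2) θ :=
        ⟨hG.kle, fun h => by omega, fun _ _ => ⟨hfN, hfk⟩, rfl⟩
      rcases H1 hg hG.poly hG.enc hA hG.sep hT (r := r) (by omega) (by omega) hjN hjs hin with
        h | ⟨-, -, h, -⟩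
      · exact (min_le_left _ _).trans h
      · exact absurd h hne
    · rw [← mul_prod_erase _ _ hks, TX_jun h0 h1 hg hG.poly hG.enc hG.sep hfk hJ he hr1 (by omega)
        (by omega) (by omega)]
      rfl
  · -- flat base
    obtain ⟨s, hs⟩ : ∃ s : ℕ, (s : ℤ) = Λ * r + 3 * r + 7 := ⟨(Λ * r + 3 * r + 7).toNat, by omega⟩
    have hJ := jb_of (R := Λ * r + r + 2) (s := s) hg hG.poly hG.enc hG.bd hG.sep hfN hdir
      (by omega) (by omega) (by omega) (by omega) (by omega)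
    have hpar' : ((qr q s ((N - s : ℕ) : ZMod N)).1 + (qr q s ((N - s : ℕ) : ZMod N)).2) % 2 =
        pr e := by
      rw [qr_base hJ.1]
      exact hpar
    have h0s : 0 ∈ spx N k τ := mem_spx.2 ⟨by omega, Or.inl rfl⟩
    have hkk : k = 0 ∨ k = N := by
      rcases hB with h | h
      · exact Or.inr h.2
      · exact Or.inl h.2
    refine ⟨(spx N k τ).erase 0, q 0, fun r' => (Ea e D (q 0) r').indicator 1, erase_subset _ _,
      fun j hj => ?_, fun j hj ω A hA hin => ?_, fun η hη E => ?_, fun ω => ?_⟩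
    · obtain ⟨hne, hj⟩ := mem_erase.1 hj
      obtain ⟨hjN, hjs⟩ := mem_spx.1 hj
      have := spe_far hg hG.sep hjN (j := 0) (by omega) hne hjs (Or.inl rfl)
        (d := (Λ + 4) * r) (by omega) (by omega)
      rwa [Nat.cast_zero] at this
    · obtain ⟨hne, hj⟩ := mem_erase.1 hj
      obtain ⟨hjN, hjs⟩ := mem_spx.1 hj
      refine (min_le_right _ _).trans (H2 hg hG.poly hG.enc hA hG.sep (r := r) (by omega)
        (by omega) (Nat.pos_of_ne_zero hne) hjN (by omega) hjs hin)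
    · have := extI_ea hF (qr_poly hG.poly s) (qr_encl hG.enc s) hJ.2 hη hpar' (r := r)
        (by omega) E
      rwa [qr_base hJ.1] at this
    · have hT : TX (wJ θ ((θ - Real.pi) / 2) q D k τ) D (q 0) r ω =
          (Ea e D (q 0) r).indicator 1 ω :=
        TX_base h0 h1 hg hG.poly hG.enc hG.sep hfN hB hJ
          hpar hr1 (by omega) (by omega) (by omega) (by omega) (by omega)
      rw [← mul_prod_erase _ _ h0s, Nat.cast_zero, hT]
      rfl

end Vale.Agent.P167.H601.M
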