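import Vale.Agent.P167.H975.LfC

/-!
# P167, general `q`, block Q-LAM (MomT): flat windows at the junction and at the base
-/

namespace Vale.Agent.P167.H601.M

open Finset
open Vale.Agent.P167.E6 (IsPolygon Encloses dir face)
open Vale.Agent.P167.BR
open Vale.Agent.P167.FK (Bq)
open Vale.Agent.P167.H871 (Bd)
open Vale.Agent.P167.H601.LG
open Vale.Agent.P167.H975
open Vale.Agent.P167.H685.LD (JW)

variable {N n₀ k L : ℕ} {q : ZMod N → ℤ × ℤ} {D : Finset (ℤ × ℤ)} {τ : ℕ → ℤ} {R : ℤ}

theorem nm_le' {v : ℤ × ℤ} {r : ℤ} : nm v ≤ r ↔ (-r ≤ v.1 ∧ v.1 ≤ r) ∧ -r ≤ v.2 ∧ v.2 ≤ r := by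
  unfold nm
  rw [max_le_iff, abs_le, abs_le]

/-- The path is straight around `J`. -/
theorem flat_path (hG : GeoN n₀ N q τ) (hu : Bd (D : Set (ℤ × ℤ)) N (fun j => q (j : ZMod N)) τ 1)
    (hS : SepL L N τ k) (hLN : L ≤ N) {J : ℕ} (hJ0 : 0 < J) (hJ : (J < N ∧ Spe τ k J) ∨ J = N)
    (hfl : τ J = τ (J - 1)) (hdir : Top.vec (τ J) = (1, 0)) {d : ℕ} (hd : d < L) (hdJ : d ≤ J) :
    ∀ m, m ≤ 2 * d → q ((J - d + m : ℕ) : ZMod N) =
      ((q (J : ZMod N)).1 + ((m : ℤ) - d), (q (J : ZMod N)).2) := by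
  obtain ⟨f1, f2⟩ := sep_flat hS hLN (fun j => hG.per j) hJ0 hJ
  intro m hm
  rcases le_total m d with h | h
  · obtain ⟨x, rfl⟩ := Nat.exists_eq_add_of_le h
    rw [show J - (m + x) + m = J - x by omega,
      straight_L hu x (by omega) fun j a b => f2 j (by omega) b, ← hfl, hdir]
    ext
    · simp [sub_eq_add_neg]
    · simp
  · obtain ⟨x, rfl⟩ := Nat.exists_eq_add_of_le h
    rw [show J - d + (d + x) = J + x by omega,
      straight_R hu x fun j a b => f1 j a (by omega), hdir]
    ext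
    · simp
    · simp

/-- The domain near a straight part of the boundary with direction `0`. -/
theorem dom_flat [NeZero N] (hD : Encloses q D) {J d : ℕ} (hd : 2 ≤ d) (hRd : R + 3 ≤ d)
    (hpath : ∀ m, m ≤ 2 * d → q ((J - d + m : ℕ) : ZMod N) =
      ((q (J : ZMod N)).1 + ((m : ℤ) - d), (q (J : ZMod N)).2))
    (hnear : ∀ i : ZMod N, nm (q i - q (J : ZMod N)) ≤ R + 2 →
      ∃ m ≤ 2 * d, i = ((J - d + m : ℕ) : ZMod N)) (hR : 0 ≤ R) :
    ∀ v, v ∈ Bq (q (J : ZMod N)) (R + 1) → (v ∈ D ↔ (q (J : ZMod N)).2 ≤ v.2) := by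
  obtain ⟨c, hc⟩ : ∃ c, c = q (J : ZMod N) := ⟨_, rfl⟩
  rw [← hc] at hpath hnear ⊢
  -- there are no sites near `c` off the line
  have hline : ∀ i : ZMod N, nm (q i - c) ≤ R + 2 → (q i).2 = c.2 := by
    intro i hi
    obtain ⟨m, hm, rfl⟩ := hnear i hi
    rw [hpath m hm]
  have hJ : q (((J - d + d : ℕ) : ZMod N) + 1) = (c.1 + 1, c.2) := by
    have := hpath (d + 1) (by omega)
    rw [← add_assoc, Nat.cast_add _ 1, Nat.cast_one] at this
    rw [this]
    ext
    · push_cast; ring
    · rfl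
  have hc0 : c ∈ D := by
    have h1 := hpath d (by omega)
    have h2 : q ((J - d + d : ℕ) : ZMod N) = c := by
      rw [h1]; ext <;> simp
    have h3 := (hD c 0).1 ⟨((J - d + d : ℕ) : ZMod N), h2, by
      rw [hJ]
      ext <;> simp [dir]⟩
    have h4 : face c 0 = c := by
      unfold face
      ext <;> simp
    rw [h4] at h3
    exact h3.1
  have hcB : c ∈ Bq c (R + 1) := by
    rw [lkBq]
    omega
  intro v hv
  have key := box_conn (c := c) (R := R + 1) (P := fun v => (v ∈ D ↔ c.2 ≤ v.2))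
    (fun v k1 k2 => ?_) (fun v k1 k2 => ?_) hcB hv
  · exact key.1 ⟨fun _ => le_rfl, fun _ => hc0⟩
  · -- a vertical side
    rw [lkBq] at k1 k2
    simp only [Prod.fst_add, Prod.snd_add] at k1 k2
    have a1 := hD (v + (1, 0)) 1
    have a2 := hD (v + (1, 1)) 3
    have e1 : face (v + (1, 0)) 1 = v := by unfold face; ext <;> simp
    have e2 : face (v + (1, 0)) (1 - 1) = v + (1, 0) := by unfold face; ext <;> simp
    have e3 : face (v + (1, 1)) 3 = v + (1, 0) := by unfold face; ext <;> simp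
    have e4 : face (v + (1, 1)) (3 - 1) = v := by unfold face; ext <;> simp
    rw [e1, e2] at a1
    rw [e3, e4] at a2
    have b1 : ¬ ∃ i, q i = v + (1, 0) ∧ q (i + 1) = v + (1, 0) + dir 1 := by
      rintro ⟨i, h1, h2⟩
      have h3 := hline i (by
        rw [h1, nm_le']
        simp only [Prod.fst_sub, Prod.snd_sub, Prod.fst_add, Prod.snd_add]
        omega)
      have h4 := hline (i + 1) (by
        rw [h2, nm_le']
        simp only [Prod.fst_sub, Prod.snd_sub, Prod.fst_add, Prod.snd_add, dir]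
        simp
        omega)
      rw [h1] at h3
      rw [h2] at h4
      simp [dir] at h3 h4
      omega
    have b2 : ¬ ∃ i, q i = v + (1, 1) ∧ q (i + 1) = v + (1, 1) + dir 3 := by
      rintro ⟨i, h1, h2⟩
      have h3 := hline i (by
        rw [h1, nm_le']
        simp only [Prod.fst_sub, Prod.snd_sub, Prod.fst_add, Prod.snd_add]
        omega)
      have h4 := hline (i + 1) (by
        rw [h2, nm_le']
        simp only [Prod.fst_sub, Prod.snd_sub, Prod.fst_add, Prod.snd_add, dir]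
        simp
        omega)
      rw [h1] at h3
      rw [h2] at h4
      simp [dir] at h3 h4
      omega
    have c1 := fun h => b1 (a1.2 h)
    have c2 := fun h => b2 (a2.2 h)
    have h5 : v ∈ D ↔ v + (1, 0) ∈ D := by tauto
    have h6 : (v + (1, 0)).2 = v.2 := by simp
    show (v ∈ D ↔ c.2 ≤ v.2) ↔ (v + (1, 0) ∈ D ↔ c.2 ≤ (v + (1, 0)).2)
    rw [h5, h6]
  · -- a horizontal side
    rw [lkBq] at k1 k2
    simp only [Prod.fst_add, Prod.snd_add] at k1 k2
    have a1 := hD (v + (0, 1)) 0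
    have a2 := hD (v + (1, 1)) 2
    have e1 : face (v + (0, 1)) 0 = v + (0, 1) := by unfold face; ext <;> simp
    have e2 : face (v + (0, 1)) (0 - 1) = v := by unfold face; ext <;> simp
    have e3 : face (v + (1, 1)) 2 = v := by unfold face; ext <;> simp
    have e4 : face (v + (1, 1)) (2 - 1) = v + (0, 1) := by unfold face; ext <;> simp
    rw [e1, e2] at a1
    rw [e3, e4] at a2
    have h6 : (v + (0, 1)).2 = v.2 + 1 := by simp
    show (v ∈ D ↔ c.2 ≤ v.2) ↔ (v + (0, 1) ∈ D ↔ c.2 ≤ (v + (0, 1)).2)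
    rw [h6]
    by_cases hv2 : v.2 + 1 = c.2
    · have hex : ∃ i, q i = v + (0, 1) ∧ q (i + 1) = v + (0, 1) + dir 0 := by
        obtain ⟨m, hm⟩ : ∃ m : ℕ, (m : ℤ) = v.1 - c.1 + d := ⟨(v.1 - c.1 + d).toNat, by omega⟩
        refine ⟨((J - d + m : ℕ) : ZMod N), ?_, ?_⟩
        · rw [hpath m (by omega)]
          ext
          · simp only [Prod.fst_add]; omega
          · simp only [Prod.snd_add]; omega
        · have := hpath (m + 1) (by omega)
          rw [← add_assoc, Nat.cast_add _ 1, Nat.cast_one] at this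
          rw [this]
          ext
          · simp only [Prod.fst_add, dir]; simp; omega
          · simp only [Prod.snd_add, dir]; simp; omega
      have := a1.1 hex
      constructor
      · intro _
        exact ⟨fun _ => by omega, fun _ => this.1⟩
      · intro _
        exact ⟨fun h => absurd h this.2, fun h => by omega⟩
    · have b1 : ¬ ∃ i, q i = v + (0, 1) ∧ q (i + 1) = v + (0, 1) + dir 0 := by
        rintro ⟨i, h1, h2⟩
        have h3 := hline i (by
          rw [h1, nm_le']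
          simp only [Prod.fst_sub, Prod.snd_sub, Prod.fst_add, Prod.snd_add]
          omega)
        rw [h1] at h3
        simp at h3
        omega
      have b2 : ¬ ∃ i, q i = v + (1, 1) ∧ q (i + 1) = v + (1, 1) + dir 2 := by
        rintro ⟨i, h1, h2⟩
        have h3 := hline i (by
          rw [h1, nm_le']
          simp only [Prod.fst_sub, Prod.snd_sub, Prod.fst_add, Prod.snd_add]
          omega)
        rw [h1] at h3
        simp at h3
        omega
      have c1 := fun h => b1 (a1.2 h)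
      have c2 := fun h => b2 (a2.2 h)
      have h5 : v ∈ D ↔ v + (0, 1) ∈ D := by tauto
      have h7 : c.2 ≤ v.2 ↔ c.2 ≤ v.2 + 1 := by omega
      rw [h5, h7]

/-- **The flat window at the junction.** -/
theorem jw_of (hG : GeoN n₀ N q τ) (hq : IsPolygon q) (hD : Encloses q D)
    (hu : Bd (D : Set (ℤ × ℤ)) N (fun j => q (j : ZMod N)) τ 1)
    (hS : SepL L N τ k) (hk0 : 0 < k) (hkN : k < N) (hfl : τ k = τ (k - 1))
    (hdir : Top.vec (τ k) = (1, 0)) (hR1 : 1 ≤ R) (hR : 3 * (R + 3) < n₀)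
    (hRL : 2 * (R + 3) < L) : JW q D k R := by
  have hN : NeZero N := ⟨by have := hq.1; omega⟩
  obtain ⟨d, hd⟩ : ∃ d : ℕ, (d : ℤ) = 2 * (R + 2) := ⟨(2 * (R + 2)).toNat, by omega⟩
  have hle := hG.le
  have hsep := hS 0 k hk0 hkN (Or.inl rfl) (Or.inr (Or.inl rfl))
  have hpath := flat_path hG hu (sepL_mono hS (L' := d + 1) (by omega)) (by omega) hk0
    (Or.inl ⟨hkN, Or.inr (Or.inl rfl)⟩) hfl hdir (d := d) (by omega) (by omega)
  have hnear : ∀ i : ZMod N, nm (q i - q (k : ZMod N)) ≤ R + 2 →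
      ∃ m ≤ 2 * d, i = ((k - d + m : ℕ) : ZMod N) := fun i hi =>
    near_win (R := R + 1) hG hkN.le (by omega) (by omega) (by omega)
      (by rw [add_assoc]; exact hi)
  have hdom := dom_flat hD (by omega) (R := R) (by omega) hpath hnear (by omega)
  refine ⟨hR1, by omega, by omega, fun j h1 h2 => ?_, fun v hv => ?_⟩
  · have h3 := hpath (j + d - k) (by omega)
    rw [show k - d + (j + d - k) = j by omega] at h3
    rw [h3]
    ext
    · dsimp only; omega
    · rfl
  · refine hdom v ?_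
    rw [nm_le'] at hv
    simp only [Prod.fst_sub, Prod.snd_sub] at hv
    rw [lkBq]
    omega

/-- **The flat window at the base.** -/
theorem jb_of (hG : GeoN n₀ N q τ) (hq : IsPolygon q) (hD : Encloses q D)
    (hu : Bd (D : Set (ℤ × ℤ)) N (fun j => q (j : ZMod N)) τ 1)
    (hS : SepL L N τ k) (hfl : τ N = τ (N - 1))
    (hdir : Top.vec (τ N) = (1, 0)) (hR1 : 1 ≤ R) (hR : 3 * (R + 3) < n₀)
    (hRL : 2 * (R + 3) < L) {s : ℕ} (hs1 : R < s) (hs2 : s + R < N) : JB q D s R := by
  have hN3 := hq.1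
  have hN : NeZero N := ⟨by omega⟩
  obtain ⟨d, hd⟩ : ∃ d : ℕ, (d : ℤ) = 2 * (R + 2) := ⟨(2 * (R + 2)).toNat, by omega⟩
  have hle := hG.le
  have hpath := flat_path hG hu (sepL_mono hS (L' := d + 1) (by omega)) (by omega)
    (by omega : 0 < N) (Or.inr rfl) hfl hdir (d := d) (by omega) (by omega)
  have hnear : ∀ i : ZMod N, nm (q i - q (N : ZMod N)) ≤ R + 2 →
      ∃ m ≤ 2 * d, i = ((N - d + m : ℕ) : ZMod N) := fun i hi =>
    near_win (R := R + 1) hG le_rfl (by omega) (by omega) (by omega)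
      (by rw [add_assoc]; exact hi)
  have hdom := dom_flat hD (by omega) (R := R) (by omega) hpath hnear (by omega)
  have hb : qr q s ((N - s : ℕ) : ZMod N) = q (N : ZMod N) := by
    rw [qr_base (by omega), ZMod.natCast_self]
  refine ⟨by omega, hR1, by omega, by omega, fun j h1 h2 => ?_, fun v hv => ?_⟩
  · rw [hb]
    have h3 := hpath (j + s + d - N) (by omega)
    rw [show N - d + (j + s + d - N) = j + s by omega, Nat.cast_add] at h3
    show q ((j : ZMod N) + (s : ZMod N)) = _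
    rw [h3]
    ext
    · dsimp only; omega
    · rfl
  · rw [hb] at hv ⊢
    refine hdom v ?_
    rw [nm_le'] at hv
    simp only [Prod.fst_sub, Prod.snd_sub] at hv
    rw [lkBq]
    omega

end Vale.Agent.P167.H601.M
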