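import Vale.Agent.P167.H601.M.Core2
import Vale.Agent.P167.H601.M.Win
import Vale.Agent.P167.H601.M.Ext
import Vale.Agent.P167.H685.LD.Jun

/-!
# P167, general `q`, block Q-LAM (MomT, U_S): the local factors of the polygons

`Geo`: the geometric part of `Pg.Ok`. `Cls`: the three classes (base at a convex corner; Dobrushin;
flat base of the good parity). `exists_data`: the special points with positive local weights, the zero
point and its factor.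
-/

namespace Vale.Agent.P167.H601.M

open Finset
open Vale.Agent.P167.E6 (IsPolygon Encloses)
open Vale.Agent.P167.BR
open Vale.Agent.P167.FK (Bq Ex Good RSW cf)
open Vale.Agent.P167.FKA (Loc Ex_mono Ex_congr Ex_const Ex_mul_left Ex_nonneg)
open Vale.Agent.P167.H562.QM (MajA OneC)
open Vale.Agent.P167.H871 (Bd)
open Vale.Agent.P167.H632 (pr)
open Vale.Agent.P167.H685.LD (JW Ea Ea_anti Ea_congr TX_jun)
open Vale.Agent.P167.H975 (TX TX_loc JB GoodB TX_base qr qr_poly qr_encl qr_base)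
open Vale.Agent.P167.H601.LG
open Vale.Agent.P167.H601.S2

/-- **Local lower bound** at the corners. -/
theorem low_cor {θ : ℝ} (h0 : 0 < θ) (h1 : θ ≤ Real.pi / 3) : ∃ c : ℝ, 0 < c ∧ c ≤ 1 ∧
    ∀ {N : ℕ} {q : ZMod N → ℤ × ℤ} {D : Finset (ℤ × ℤ)} {ω : Cfg} {A : Finset Ed} {τ : ℕ → ℤ}
      {n k L : ℕ} {β : ℝ}, GeoN n N q τ → IsPolygon q → Encloses q D → A ∈ pcs ω D →
      SepL L N τ k → ∀ {r : ℤ}, 3 * (r + 1) < n → 4 * (r + 1) < L →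
      ∀ {j : ℕ}, 0 < j → j < N → j ≠ k → Spe τ k j →
      (∀ e ∈ A, hdv e ∈ FK.Bq (q (j : ZMod N)) r) → c ≤ wJ θ β q D k τ A := by
  obtain ⟨c, hc0, hc1, hc⟩ := exists_low_wJ h0 h1
  have hcos : 0 < Real.cos θ := Real.cos_pos_of_mem_Ioo ⟨by linarith [Real.pi_pos], by
    linarith [Real.pi_pos]⟩
  refine ⟨c, hc0, hc1, fun {N q D ω A τ n k L β} hG hq hD hA hS {r} hr hrL {j} hj0 hjN hjk hj
    hin => ?_⟩
  by_cases hl : IsLp D A
  · rwa [wJ_lp hq hD hA hl hcos.ne']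
  · have hr0 : 0 ≤ r := by
      obtain ⟨e, he⟩ := pcs_nonempty hA
      exact (H825.Reg.nm_nn _).trans (nm_of_Bq (hin e he))
    rcases near_spe hG hq hD hA hl hS hj0 hjN hj hr (by omega) hin with ⟨a1, a2, a3⟩ | ⟨-, a2, a3⟩
    · have hF : ¬ Fw q k A := fun h => hjk (a3.1 h)
      have ht := hG.turn (j - 1)
      rw [Nat.sub_add_cancel hj0, abs_le] at ht
      exact hc hq hD hA hF (by omega) (by omega)
    · exact hc hq hD hA a3 (by omega) (by omega)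

/-- The extension property with constants. -/
def ExtF (Q : ℝ) (Λ : ℤ) (KE : ℕ → ℤ) (CE : ℕ → ℝ) : Prop := 1 ≤ Λ ∧ ∀ E : ℕ, 1 ≤ KE E ∧ 1 ≤ CE E ∧
  ∀ {n : ℕ} {q : ZMod n → ℤ × ℤ} {D : Finset (ℤ × ℤ)} {k : ℕ} {R : ℤ} {η : Cfg} {e : Bool},
    IsPolygon q → Encloses q D → JW q D k R → Good η →
    ((q (k : ZMod n)).1 + (q (k : ZMod n)).2) % 2 = pr e →
    ∀ r' r'' : ℤ, KE E ≤ r' → r' ≤ r'' → r'' ≤ 2 * E * r' → Λ * r'' ≤ R →
    ∀ F : Cfg → ℝ, (∀ ω, 0 ≤ F ω) →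
      (∀ ω ω' : Cfg, (∀ v, ¬ (v ∈ D ∧ nm (v - q (k : ZMod n)) ≤ Λ * r'') → ω v = ω' v) →
        F ω = F ω') →
      Ex Q D η (fun ω => (Ea e D (q (k : ZMod n)) r').indicator 1 ω * F ω) ≤
        CE E * Ex Q D η (fun ω => (Ea e D (q (k : ZMod n)) r'').indicator 1 ω * F ω)

theorem exists_extF {Q : ℝ} (h : ExtE Q) : ∃ (Λ : ℤ) (KE : ℕ → ℤ) (CE : ℕ → ℝ),
    ExtF Q Λ KE CE := by
  obtain ⟨Λ, hΛ, h⟩ := h
  choose KE CE h1 h2 h3 using h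
  exact ⟨Λ, KE, CE, hΛ, fun E => ⟨h1 E, h2 E, h3 E⟩⟩

/-- The event at a flat boundary point as an extra factor. -/
theorem extI_ea {Q : ℝ} {Λ : ℤ} {KE : ℕ → ℤ} {CE : ℕ → ℝ} (h : ExtF Q Λ KE CE) {n : ℕ}
    {q : ZMod n → ℤ × ℤ} {D : Finset (ℤ × ℤ)} {k : ℕ} {R r : ℤ} {η : Cfg} {e : Bool}
    (hq : IsPolygon q) (hD : Encloses q D) (hW : JW q D k R) (hη : Good η)
    (hp : ((q (k : ZMod n)).1 + (q (k : ZMod n)).2) % 2 = pr e) (hr : Λ * r ≤ R) (E : ℕ) :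
    ExtI Q D η (fun r' => (Ea e D (q (k : ZMod n)) r').indicator 1) (q (k : ZMod n)) Λ E (KE E)
      (CE E) r := by
  refine ⟨h.1, fun r' ω => Set.indicator_nonneg (fun _ _ => zero_le_one) _,
    fun r' r'' ω _ h2 _ => ?_, fun r' _ _ ω ω' hω => ?_, fun r' r'' h1 h2 h3 h4 F hF0 hF => ?_⟩
  · exact Set.indicator_le_indicator_of_subset (Ea_anti h2) (fun _ => zero_le_one) ω
  · have h3 : ω ∈ Ea e D (q (k : ZMod n)) r' ↔ ω' ∈ Ea e D (q (k : ZMod n)) r' :=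
      Ea_congr fun v _ hv => hω v hv
    by_cases h4 : ω ∈ Ea e D (q (k : ZMod n)) r'
    · rw [Set.indicator_of_mem h4, Set.indicator_of_mem (h3.1 h4)]
      rfl
    · rw [Set.indicator_of_notMem h4, Set.indicator_of_notMem fun h5 => h4 (h3.2 h5)]
  · refine (h.2 E).2.2 hq hD hW hη hp r' r'' h1 h2 h4 ?_ F hF0 hF
    exact (mul_le_mul_of_nonneg_left h3 (by linarith [h.1])).trans hr

/-- The trivial extra factor. -/
theorem extI_one {Q : ℝ} {Λ : ℤ} {KE : ℕ → ℤ} {CE : ℕ → ℝ} (h : ExtF Q Λ KE CE) (hQ : 0 < Q)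
    (D : Finset (ℤ × ℤ)) (η : Cfg) (c : ℤ × ℤ) (r : ℤ) (E : ℕ) :
    ExtI Q D η (fun _ _ => 1) c Λ E (KE E) (CE E) r := by
  refine ⟨h.1, fun _ _ => zero_le_one, fun _ _ _ _ _ _ => le_rfl, fun _ _ _ _ _ _ => rfl,
    fun r' r'' h1 h2 h3 h4 F hF0 _ => ?_⟩
  refine le_mul_of_one_le_left (Ex_nonneg hQ fun _ _ => ?_) (h.2 E).2.1
  rw [one_mul]
  exact hF0 _

/-- A point far from finitely many points. -/
theorem exists_far (X : Finset (ℤ × ℤ)) (B : ℤ) : ∃ c : ℤ × ℤ, ∀ x ∈ X, B < nm (x - c) := by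
  refine ⟨(∑ x ∈ X, |x.1| + |B| + 1, 0), fun x hx => ?_⟩
  have h1 : |x.1| ≤ ∑ x ∈ X, |x.1| :=
    Finset.single_le_sum (f := fun x : ℤ × ℤ => |x.1|) (fun _ _ => abs_nonneg _) hx
  have h2 : |(x - (∑ x ∈ X, |x.1| + |B| + 1, (0 : ℤ))).1| ≤
      nm (x - (∑ x ∈ X, |x.1| + |B| + 1, 0)) := by
    unfold nm
    exact le_max_left _ _
  have h3 : (x - (∑ x ∈ X, |x.1| + |B| + 1, (0 : ℤ))).1 = x.1 - (∑ x ∈ X, |x.1| + |B| + 1) := rfl
  rw [h3] at h2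
  have h4 := le_abs_self B
  have h5 := le_abs_self x.1
  have h6 := neg_abs_le (x.1 - (∑ x ∈ X, |x.1| + |B| + 1))
  omega

end Vale.Agent.P167.H601.M
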