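import Vale.Agent.P167.H601.M.Cl
import Vale.Agent.P167.H852.Q.Cls

/-!
# P167, general `q`, block Q-LAM: `MomT` for the families in question
-/

namespace Vale.Agent.P167.H601.M

open Filter
open Vale.Agent.P167.FK
open Vale.Agent.P167.H825 (pdir)
open Vale.Agent.P167.H542.Q (BD)
open Vale.Agent.P167.H192.Q (SRSW)
open Vale.Agent.P167.H760.Q (BaseQ baseQ_b)
open Vale.Agent.P167.H852.Q (MomT)

theorem pdir_zero {l : ℕ} {p : ZMod l → ℤ × ℤ} {i : ℕ}
    (h : p ((i : ZMod l) + 1) = p (i : ZMod l) + (1, 0)) : pdir p i = 0 := by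
  unfold pdir
  rw [h, add_sub_cancel_left]
  rfl

variable {S : CA.Dat} {θ : ℝ}

/-- **`MomT`**: exponential moments, weighted by the local factors, of the number of the big pieces. -/
theorem momT (h0 : 0 < θ) (h1 : θ ≤ Real.pi / 3) (hR : RSW (2 * Real.cos θ))
    (hSR : SRSW (2 * Real.cos θ)) (X : BD S θ ((θ - Real.pi) / 2)) {s : ℕ → ℕ} (hb : BaseQ X s)
    (hc : H852.Q.Cls X) : MomT X := by
  have hd : pdir S.p 0 = 0 := pdir_zero (by
    have h := S.step
    rw [hc.r] at h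
    rw [Nat.cast_zero, zero_add]
    exact h)
  have hX : ∃ σ : ℝ, 0 < σ ∧ HX X σ := by
    rcases hc.ty with ⟨b, hb'⟩ | ⟨ia, hd'⟩
    · refine hx_fw X hb hd ?_
      cases b
      · refine Or.inl ?_
        filter_upwards [hb'.k, hb'.par] with n e1 e2
        exact ⟨by simpa using e1, e2.2 rfl⟩
      · refine Or.inr ?_
        filter_upwards [hb'.k, hb'.par] with n e1 e2
        exact ⟨by simpa using e1, fun h => by simpa using e2.1 h⟩
    · exact hx_dob X (baseQ_b hd'.b) hd'.i0 hd'.i1 hd'.k hd (pdir_zero hd'.dir)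
  obtain ⟨σ, hσ, hX⟩ := hX
  exact momT_of h0 h1 hR hSR X hσ hX

end Vale.Agent.P167.H601.M
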