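import Vale.Agent.P167.H601.M.Geo
import Vale.Agent.P167.H718.Lam.Asm1
import Vale.Agent.P167.H562.MAJ1
import Vale.Agent.P167.H852.Q.Mom

/-!
# P167, general `q`, block Q-LAM: `MomT` for the families of the three classes
-/

namespace Vale.Agent.P167.H601.M

open Finset Filter Topology
open Vale.Agent.P167.E6 (IsPolygon Encloses)
open Vale.Agent.P167.BR
open Vale.Agent.P167.FK
open Vale.Agent.P167.FKA (Loc Ex_mono Ex_congr Ex_const Ex_mul_left Ex_nonneg)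
open Vale.Agent.P167.H562.QM (MajA OneC)
open Vale.Agent.P167.H562.MAJ (bigs)
open Vale.Agent.P167.H192.Q (SRSW)
open Vale.Agent.P167.H871 (Bd)
open Vale.Agent.P167.H542.Q (BD)
open Vale.Agent.P167.H167.Q (Reg)
open Vale.Agent.P167.H718 (Dob poly_add encl_add bd_add)
open Vale.Agent.P167.H718.Lam (Ex_eta)
open Vale.Agent.P167.H975 (TX TX_loc)
open Vale.Agent.P167.H601.LG
open Vale.Agent.P167.H601.S2
open Vale.Agent.P167.H852.Q (TPs MomT)

/-- The configuration `ω` in `D`, `η₀` outside. -/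
noncomputable def mix (D : Finset (ℤ × ℤ)) (η₀ ω : Cfg) : Cfg := fun v => open Classical in
  if v ∈ D then ω v else η₀ v

theorem mix_in {D : Finset (ℤ × ℤ)} {η₀ ω : Cfg} {v : ℤ × ℤ} (h : v ∈ D) :
    mix D η₀ ω v = ω v := by
  unfold mix
  rw [if_pos h]

theorem mix_out {D : Finset (ℤ × ℤ)} {η₀ ω : Cfg} {v : ℤ × ℤ} (h : v ∉ D) :
    mix D η₀ ω v = η₀ v := by
  unfold mix
  rw [if_neg h]

theorem mix_cf (D : Finset (ℤ × ℤ)) (η₀ : Cfg) (S : Finset (ℤ × ℤ)) :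
    mix D η₀ (cf D η₀ S) = cf D η₀ S := by
  funext v
  by_cases h : v ∈ D
  · rw [mix_in h]
  · rw [mix_out h]
    unfold cf
    rw [if_neg h]

/-- The number of the big pieces. -/
theorem card_bigs {D : Finset (ℤ × ℤ)} {ω : Cfg} {d : ℝ} {N : ℕ} (hN : MajA D d ω N) :
    (bigs D D d ω).card ≤ N := by
  classical
  refine hN _ (fun γ hγ => H167.isSeg (Finset.mem_filter.1 hγ).1) ?_ ?_
  · intro γ hγ γ' hγ' hne
    rw [Finset.disjoint_left]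
    intro e he he'
    exact hne (eq_of_mem_pcs (Finset.mem_filter.1 hγ).1 (Finset.mem_filter.1 hγ').1 he he')
  · intro γ hγ
    obtain ⟨h1, -, h2⟩ := Finset.mem_filter.1 hγ
    refine ⟨?_, ?_⟩
    · by_cases hl : IsLp D γ
      · obtain ⟨e, he⟩ := pcs_nonempty h1
        exact ⟨e, he, hl _ he⟩
      · obtain ⟨e, he, h3⟩ := exists_entry h1 hl
        exact ⟨e, he, (mem_eds.1 (subset_eds h1 he)).resolve_right h3⟩
    · unfold Small at h2
      push Not at h2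
      obtain ⟨u, hu, v, hv, h4⟩ := h2
      obtain ⟨e1, he1, rfl⟩ := Finset.mem_image.1 hu
      obtain ⟨e2, he2, rfl⟩ := Finset.mem_image.1 hv
      exact ⟨e1, he1, e2, he2, h4⟩

/-- The diameter of an enlargement. -/
theorem enl_dia {Q : Finset (ℤ × ℤ)} {n : ℕ} (hn : 1 ≤ n) (a : Fin 4) {v : ℤ × ℤ}
    (hv : v ∈ (CA.enl Q n).image (· + E6.dir a)) :
    (nm (v - (0, 0)) : ℝ) ≤ ((∑ w ∈ Q, nm w : ℤ) + 2 : ℝ) * n := by
  obtain ⟨w, hw, rfl⟩ := mem_image.1 hv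
  unfold CA.enl at hw
  rw [mem_biUnion] at hw
  obtain ⟨u, hu, hw⟩ := hw
  obtain ⟨b, hb, rfl⟩ := mem_image.1 hw
  rw [mem_product, mem_range, mem_range] at hb
  have h1 : nm u ≤ ∑ w ∈ Q, nm w :=
    single_le_sum (f := fun w => nm w) (fun w _ => H825.Reg.nm_nn w) hu
  have hd : nm (E6.dir a) ≤ 1 := by fin_cases a <;> simp [E6.dir, nm]
  have h2 : nm ((((n : ℤ) * u.1 + b.1, (n : ℤ) * u.2 + b.2) : ℤ × ℤ) + E6.dir a - (0, 0)) ≤
      n * nm u + n + 1 := by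
    unfold nm at hd ⊢
    obtain ⟨d1, d2⟩ := max_le_iff.1 hd
    rw [abs_le] at d1 d2
    have e1 := le_max_left |u.1| |u.2|
    have e2 := le_max_right |u.1| |u.2|
    have hn0 : (0 : ℤ) ≤ n := Int.natCast_nonneg n
    have f1 : |(n : ℤ) * u.1| ≤ n * max |u.1| |u.2| := by
      rw [abs_mul, abs_of_nonneg hn0]
      exact mul_le_mul_of_nonneg_left e1 hn0
    have f2 : |(n : ℤ) * u.2| ≤ n * max |u.1| |u.2| := by
      rw [abs_mul, abs_of_nonneg hn0]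
      exact mul_le_mul_of_nonneg_left e2 hn0
    rw [abs_le] at f1 f2
    rw [max_le_iff, abs_le, abs_le]
    simp only [Prod.fst_add, Prod.snd_add, Prod.fst_sub, Prod.snd_sub]
    omega
  have h3 : (n : ℤ) * nm u + n + 1 ≤ (∑ w ∈ Q, nm w + 2) * n := by
    have h4 : (n : ℤ) * nm u ≤ n * ∑ w ∈ Q, nm w :=
      mul_le_mul_of_nonneg_left h1 (Int.natCast_nonneg n)
    have h5 : (∑ w ∈ Q, nm w + 2) * (n : ℤ) = n * ∑ w ∈ Q, nm w + 2 * n := by ring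
    omega
  have h6 := h2.trans h3
  exact_mod_cast h6

variable {S : CA.Dat} {θ β : ℝ}

theorem TPs_eq {N : ℕ} (q : ZMod N → ℤ × ℤ) (D : Finset (ℤ × ℤ)) (k : ℕ) (τ : ℕ → ℤ) (r : ℤ)
    (ω : Cfg) : TPs θ ((θ - Real.pi) / 2) q D k τ r ω = TS θ q D k τ r ω := rfl

/-- **`MomT`** for the families of the three classes. -/
theorem momT_of (h0 : 0 < θ) (h1 : θ ≤ Real.pi / 3) (hR : RSW (2 * Real.cos θ))
    (hSR : SRSW (2 * Real.cos θ)) (X : BD S θ ((θ - Real.pi) / 2)) {σ : ℝ} (hσ : 0 < σ)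
    (H : ∀ᶠ n : ℕ in X.L, ∀ (a : Fin 4) (τ : ℕ → ℤ),
      Bd (S.D n : Set (ℤ × ℤ)) (X.N n) (fun i => X.q n (i : ZMod (X.N n))) τ 1 →
      SepL ⌊σ * n⌋₊ (X.N n) τ (X.k n) ∧ Cls (fun i => X.q n i + E6.dir a) (X.k n) τ ∧
      ∃ η₀, Dob η₀ ((S.D n).image (· + E6.dir a)) (fun i => X.q n i + E6.dir a) (X.k n) ∧
        Reg ⌊σ * n⌋ ((S.D n).image (· + E6.dir a)) η₀) : MomT X := by
  classical
  have hQ0 : 0 < 2 * Real.cos θ := BD.cos_pos h0 h1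
  obtain ⟨R, hR'⟩ : ∃ R : ℝ, R = ((∑ w ∈ S.Q, nm w : ℤ) + 2 : ℝ) + S.l := ⟨_, rfl⟩
  obtain ⟨ρ₁, hρ₁, HG⟩ := mom_geo h0 h1 hR hSR σ R hσ
  refine ⟨ρ₁, hρ₁, fun ρ hρ hρ1 κ s hκ hs => ?_⟩
  obtain ⟨c, C, n₀, hc, hC, HG⟩ := HG ρ hρ hρ1 κ s hκ hs
  refine ⟨c, C, hc, hC, ?_⟩
  filter_upwards [X.poly, X.enc, X.kle, H, X.le (eventually_ge_atTop (max n₀ 1))] with n hq hD hk H hn
  intro a τ hτ z
  have hn0 : n₀ ≤ n := (le_max_left _ _).trans hn
  have hn1 : 1 ≤ n := (le_max_right _ _).trans hn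
  obtain ⟨hsep, hcls, η₀, hη₀, hreg⟩ := H a τ hτ
  have hqa := poly_add hq (E6.dir a)
  have hDa := encl_add hD (E6.dir a)
  have hBa := bd_add hτ (E6.dir a)
  have hsum : (0 : ℝ) ≤ ((∑ w ∈ S.Q, nm w : ℤ) : ℝ) := by
    have : 0 ≤ ∑ w ∈ S.Q, nm w := sum_nonneg fun w _ => H825.Reg.nm_nn w
    exact_mod_cast this
  have hl0 : (0 : ℝ) ≤ S.l := Nat.cast_nonneg _
  have hnn : (0 : ℝ) ≤ n := Nat.cast_nonneg _
  have hG : Geo n σ R (fun i => X.q n i + E6.dir a) ((S.D n).image (· + E6.dir a)) (X.k n) τ := by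
    refine ⟨geoN_enl S.poly S.enc hn1 hqa hDa hBa, hqa, hDa, hBa, hsep, hk, ⟨(0, 0), fun v hv => ?_⟩,
      ?_⟩
    · refine (enl_dia hn1 a hv).trans (mul_le_mul_of_nonneg_right ?_ hnn)
      rw [hR']
      linarith
    · have hN : X.N n = S.l * n := (exists_PN S.poly S.enc hn1 hqa hDa).1
      rw [hN, hR']
      rw [Nat.cast_mul]
      refine mul_le_mul_of_nonneg_right ?_ hnn
      linarith
  obtain ⟨hpos, hz⟩ := HG n hn0 hG hcls
  obtain ⟨Nf, t1, t2, t3⟩ := hz z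
  obtain ⟨D', hD'⟩ : ∃ D', D' = (S.D n).image (· + E6.dir a) := ⟨_, rfl⟩
  rw [← hD'] at hpos t2 t3 hη₀ hreg hDa ⊢
  refine ⟨fun ω => Nf (mix D' η₀ ω), fun ω ω' h => t1 _ _ fun v hv => ?_, fun ω => ?_,
    fun η hη => ?_⟩
  · by_cases hv' : v ∈ D'
    · rw [mix_in hv', mix_in hv', h v hv]
    · rw [mix_out hv', mix_out hv']
  · have h3 : bigs D' D' (κ * n) ω = bigs D' D' (κ * n) (mix D' η₀ ω) := by
      unfold bigs
      rw [pcs_congr fun v hv => (mix_in hv).symm]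
    rw [h3]
    exact card_bigs (t2 _)
  · have e0 : ∀ ω, |TPs θ ((θ - Real.pi) / 2) (fun i => X.q n i + E6.dir a) D' (X.k n) τ
        ⌊ρ * n⌋ ω| = TS θ (fun i => X.q n i + E6.dir a) D' (X.k n) τ ⌊ρ * n⌋ ω := fun ω => by
      rw [TPs_eq, abs_of_nonneg (hpos ω)]
    simp only [e0]
    have hloc : ∀ ω ω' : Cfg, (∀ v ∈ D', ω v = ω' v) →
        TS θ (fun i => X.q n i + E6.dir a) D' (X.k n) τ ⌊ρ * n⌋ ω =
          TS θ (fun i => X.q n i + E6.dir a) D' (X.k n) τ ⌊ρ * n⌋ ω' := by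
      intro ω ω' h
      exact prod_congr rfl fun j _ => TX_loc _ _ _ _ ω ω' fun v hv => h v (mem_inter.1 hv).2
    rw [Ex_eta hqa hDa hk hη hη₀ hQ0 (fun ω ω' h => ?_), Ex_eta hqa hDa hk hη hη₀ hQ0 hloc]
    · have key := t3 η₀ hreg.good hreg.one
      refine le_trans (le_of_eq ?_) key
      refine Ex_congr fun T _ => ?_
      rw [mix_cf]
    · have h4 : mix D' η₀ ω = mix D' η₀ ω' := by
        funext v
        by_cases hv' : v ∈ D'
        · rw [mix_in hv', mix_in hv', h v hv']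
        · rw [mix_out hv', mix_out hv']
      rw [h4, hloc ω ω' h]

end Vale.Agent.P167.H601.M
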